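import Vale.Agent.P370.H617.Alg
import Mathlib.RingTheory.Derivation.Lie

/-! Concrete Sturmian operators on pairs of polynomials. -/

namespace Vale.Agent.P370.H617

open MvPolynomial
open Vale.Agent.P363.H849

noncomputable section

theorem pderiv_comm' (i j : Fin 3) (p : Poly) :
    pderiv i (pderiv j p) = pderiv j (pderiv i p) := by
  have h : ⁅(pderiv i : Derivation ℝ Poly Poly), (pderiv j : Derivation ℝ Poly Poly)⁆ = 0 := by
    apply MvPolynomial.derivation_ext
    intro k
    rw [Derivation.commutator_apply, pderiv_X, pderiv_X, Derivation.zero_apply]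
    have h4 : ∀ a b c : Fin 3, pderiv a ((Pi.single b 1 : Fin 3 → Poly) c) = 0 := by
      intro a b c
      by_cases h : c = b
      · subst h; simp
      · simp [h]
    rw [h4, h4, sub_zero]
  have h2 := congrArg (fun D : Derivation ℝ Poly Poly => D p) h
  simp only [Derivation.commutator_apply, Derivation.zero_apply] at h2
  exact sub_eq_zero.1 h2

theorem pderiv_eul (i : Fin 3) (p : Poly) : pderiv i (eul p) = eul (pderiv i p) + pderiv i p := by
  unfold eul
  rw [map_sum]
  have h : ∀ j : Fin 3, pderiv i (X j * pderiv j p)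
      = X j * pderiv j (pderiv i p) + (if j = i then pderiv i p else 0) := by
    intro j
    rw [Derivation.leibniz, smul_eq_mul, smul_eq_mul, pderiv_X, pderiv_comm' i j]
    by_cases h : j = i
    · subst h; simp
    · simp [h]
  rw [Finset.sum_congr rfl fun j _ => h j, Finset.sum_add_distrib, Finset.sum_ite_eq']
  simp

theorem lap_eul (p : Poly) : lap (eul p) = eul (lap p) + (2 : ℝ) • lap p := by
  have h : ∀ k : Fin 3, pderiv k (pderiv k (eul p))
      = eul (pderiv k (pderiv k p)) + (2 : ℝ) • pderiv k (pderiv k p) := by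
    intro k
    rw [pderiv_eul, map_add, pderiv_eul]
    module
  unfold lap
  rw [Finset.sum_congr rfl fun k _ => h k, Finset.sum_add_distrib, ← Finset.smul_sum]
  congr 1
  simp only [Fin.sum_univ_three, eul_add]

theorem eul_mul (p q : Poly) : eul (p * q) = eul p * q + p * eul q := by
  unfold eul
  rw [Finset.sum_mul, Finset.mul_sum, ← Finset.sum_add_distrib]
  apply Finset.sum_congr rfl
  intro k _
  rw [Derivation.leibniz, smul_eq_mul, smul_eq_mul]
  ring

theorem lap_mul (p q : Poly) : lap (p * q)
    = lap p * q + 2 * (∑ k : Fin 3, pderiv k p * pderiv k q) + p * lap q := by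
  unfold lap
  rw [Finset.sum_mul, Finset.mul_sum, Finset.mul_sum, ← Finset.sum_add_distrib,
    ← Finset.sum_add_distrib]
  apply Finset.sum_congr rfl
  intro k _
  simp only [Derivation.leibniz, smul_eq_mul, map_add]
  ring

theorem pderiv_rsq (i : Fin 3) : pderiv i rsq = 2 * X i := by
  unfold rsq
  rw [map_sum]
  have h : ∀ k : Fin 3, pderiv i ((X k : Poly) * X k) = if k = i then 2 * X i else 0 := by
    intro k
    rw [Derivation.leibniz, smul_eq_mul, pderiv_X]
    by_cases h : k = i
    · subst h; simp; ring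
    · simp [h]
  rw [Finset.sum_congr rfl fun k _ => h k, Finset.sum_ite_eq']
  simp

theorem eul_rsq : eul rsq = 2 * rsq := by
  unfold eul
  simp only [pderiv_rsq]
  unfold rsq
  rw [Finset.mul_sum]
  apply Finset.sum_congr rfl
  intro k _
  ring

theorem lap_rsq : lap rsq = 6 := by
  unfold lap
  simp only [pderiv_rsq]
  have h : ∀ k : Fin 3, pderiv k (2 * X k : Poly) = 2 := by
    intro k
    rw [Derivation.leibniz, smul_eq_mul, smul_eq_mul, pderiv_X_self]
    have : pderiv k (2 : Poly) = 0 := by
      have : (2 : Poly) = C 2 := by rw [map_ofNat]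
      rw [this, pderiv_C]
    rw [this]
    ring
  rw [Finset.sum_congr rfl fun k _ => h k]
  simp
  norm_num

theorem eul_rsq_mul (p : Poly) : eul (rsq * p) = rsq * eul p + (2 : ℝ) • (rsq * p) := by
  rw [eul_mul, eul_rsq, two_smul]
  ring

theorem lap_rsq_mul (p : Poly) :
    lap (rsq * p) = rsq * lap p + (4 : ℝ) • eul p + (6 : ℝ) • p := by
  rw [lap_mul, lap_rsq]
  have h : (∑ k : Fin 3, pderiv k rsq * pderiv k p) = 2 * eul p := by
    unfold eul
    rw [Finset.mul_sum]
    apply Finset.sum_congr rfl
    intro k _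
    rw [pderiv_rsq]; ring
  rw [h]
  have h4 : (4 : ℝ) • eul p = 4 * eul p := by
    rw [MvPolynomial.smul_eq_C_mul, map_ofNat]
  have h6 : (6 : ℝ) • p = 6 * p := by
    rw [MvPolynomial.smul_eq_C_mul, map_ofNat]
  rw [h4, h6]
  ring

theorem lap_neg (p : Poly) : lap (-p) = - lap p := by
  have := lap_smul (-1) p
  simpa using this

theorem lap_sub (p q : Poly) : lap (p - q) = lap p - lap q := by
  rw [sub_eq_add_neg, lap_add, lap_neg, sub_eq_add_neg]

theorem eul_neg (p : Poly) : eul (-p) = - eul p := by
  have := eul_smul (-1) p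
  simpa using this

theorem eul_sub (p q : Poly) : eul (p - q) = eul p - eul q := by
  rw [sub_eq_add_neg, eul_add, eul_neg, sub_eq_add_neg]

/-! ### operators on pairs -/

/-- `K` as a linear map -/
def KL (κ : ℝ) : Poly × Poly →ₗ[ℝ] Poly × Poly where
  toFun := Kop κ
  map_add' u v := by
    apply Prod.ext
    · simp only [Kop, Prod.fst_add, Prod.snd_add, eul_add, lap_add, mul_add]
      module
    · simp only [Kop, Prod.fst_add, Prod.snd_add, eul_add, lap_add]
      module
  map_smul' a u := by
    apply Prod.ext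
    · simp only [Kop, Prod.smul_fst, Prod.smul_snd, eul_smul, lap_smul, mul_smul_comm,
        RingHom.id_apply]
      module
    · simp only [Kop, Prod.smul_fst, Prod.smul_snd, eul_smul, lap_smul, RingHom.id_apply]
      module

theorem KL_apply (κ : ℝ) (u : Poly × Poly) : KL κ u = Kop κ u := rfl

/-- multiplication by `r` -/
def rL : Poly × Poly →ₗ[ℝ] Poly × Poly where
  toFun u := (rsq * u.2, u.1)
  map_add' u v := by
    apply Prod.ext
    · simp only [Prod.snd_add, mul_add, Prod.fst_add]
    · simp only [Prod.fst_add, Prod.snd_add]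
  map_smul' a u := by
    apply Prod.ext
    · simp only [Prod.smul_snd, mul_smul_comm, Prod.smul_fst, RingHom.id_apply]
    · simp only [Prod.smul_fst, Prod.smul_snd, RingHom.id_apply]

theorem rL_apply (u : Poly × Poly) : rL u = (rsq * u.2, u.1) := rfl

/-- `x·∇ + 1` -/
def FL (κ : ℝ) : Poly × Poly →ₗ[ℝ] Poly × Poly where
  toFun u := (eul u.1 + u.1 - κ • (rsq * u.2), eul u.2 + (2 : ℝ) • u.2 - κ • u.1)
  map_add' u v := by
    apply Prod.ext
    · simp only [Prod.snd_add, mul_add, Prod.fst_add, eul_add]
      module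
    · simp only [Prod.fst_add, Prod.snd_add, eul_add]
      module
  map_smul' a u := by
    apply Prod.ext
    · simp only [Prod.smul_snd, mul_smul_comm, Prod.smul_fst, RingHom.id_apply, eul_smul]
      module
    · simp only [Prod.smul_fst, Prod.smul_snd, RingHom.id_apply, eul_smul]
      module

theorem FL_apply (κ : ℝ) (u : Poly × Poly) :
    FL κ u = (eul u.1 + u.1 - κ • (rsq * u.2), eul u.2 + (2 : ℝ) • u.2 - κ • u.1) := rfl

theorem rel_Kr (κ : ℝ) (u : Poly × Poly) : KL κ (rL u) = rL (KL κ u) - FL κ u := by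
  obtain ⟨p, q⟩ := u
  apply Prod.ext
  · simp only [KL_apply, rL_apply, FL_apply, Kop, Prod.fst_sub, eul_rsq_mul, mul_add, mul_neg,
      mul_smul_comm]
    module
  · simp only [KL_apply, rL_apply, FL_apply, Kop, Prod.snd_sub, lap_rsq_mul]
    module

theorem rel_Fr (κ : ℝ) (u : Poly × Poly) : FL κ (rL u) = rL (FL κ u) + rL u := by
  obtain ⟨p, q⟩ := u
  apply Prod.ext
  · simp only [rL_apply, FL_apply, Prod.fst_add, eul_rsq_mul, mul_add, mul_sub,
      mul_smul_comm]
    module
  · simp only [rL_apply, FL_apply, Prod.snd_add]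
    module

theorem rel_KF (κ : ℝ) (u : Poly × Poly) :
    KL κ (FL κ u) = FL κ (KL κ u) + KL κ u - κ ^ 2 • rL u := by
  obtain ⟨p, q⟩ := u
  apply Prod.ext
  · simp only [KL_apply, rL_apply, FL_apply, Kop, Prod.fst_sub, Prod.fst_add, Prod.smul_fst,
      eul_rsq_mul, mul_add, mul_sub, mul_neg, eul_add, eul_sub, eul_smul, lap_add, lap_sub,
      lap_smul, lap_eul, mul_smul_comm]
    module
  · simp only [KL_apply, rL_apply, FL_apply, Kop, Prod.snd_sub, Prod.snd_add, Prod.smul_snd,
      eul_add, eul_sub, eul_smul, lap_add, lap_sub, eul_neg,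
      lap_smul, lap_eul, lap_rsq_mul]
    module

/-- `L²` on polynomials -/
def Lp : Poly →ₗ[ℝ] Poly where
  toFun p := eul (eul p) + eul p - rsq * lap p
  map_add' p q := by
    simp only [eul_add, lap_add, mul_add]
    module
  map_smul' a p := by
    simp only [eul_smul, lap_smul, mul_smul_comm, RingHom.id_apply]
    module

theorem Lp_apply (p : Poly) : Lp p = eul (eul p) + eul p - rsq * lap p := rfl

/-- the Casimir operator acts by `L²` on both components -/
theorem cas_eq (κ : ℝ) (u : Poly × Poly) :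
    cas (KL κ) rL (FL κ) (κ ^ 2) u = (Lp u.1, Lp u.2) := by
  obtain ⟨p, q⟩ := u
  rw [cas_apply]
  apply Prod.ext
  · simp only [KL_apply, rL_apply, FL_apply, Kop, Prod.fst_sub, Prod.fst_add, Prod.smul_fst,
      eul_rsq_mul, mul_add, mul_sub, mul_neg, eul_add, eul_sub, eul_smul, mul_smul_comm, Lp_apply]
    module
  · simp only [KL_apply, rL_apply, FL_apply, Kop, Prod.snd_sub, Prod.snd_add, Prod.smul_snd,
      eul_add, eul_sub, eul_smul, lap_rsq_mul, Lp_apply]
    module

end

end Vale.Agent.P370.H617
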