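import Vale.Agent.P370.H617.Stmts

/-! The two-electron integrals on the shell as a 4-linear form. -/

namespace Vale.Agent.P370.H617

open MeasureTheory Set Real Filter Topology
open Vale.Agent.P363.H849
open Vale.Agent.P363.R.H10 (DD DD_comm DD_add_left DD_add_right DD_mul_left DD_mul_right)
open Vale.Agent.P370.H624 (Shell)
open Vale.Agent.P370.H758 (EB_shell)
open Vale.Agent.P370.H305 (nrm gV)

noncomputable section

variable {J : ℕ}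

/-- the pair `f₃ f₄` against `f₁ f₂` -/
def G4in (f₁ f₂ : ↥(Shell J)) : ↥(Shell J) →ₗ[ℝ] ↥(Shell J) →ₗ[ℝ] ℝ :=
  LinearMap.mk₂ ℝ
    (fun f₃ f₄ => DD (fun x => f₁.1.1.1 x * f₂.1.1.1 x) (fun x => f₃.1.1.1 x * f₄.1.1.1 x))
    (fun f₃ f₃' f₄ => by
      show _ = DD _ (fun x => f₃.1.1.1 x * f₄.1.1.1 x) + DD _ (fun x => f₃'.1.1.1 x * f₄.1.1.1 x)
      rw [← DD_add_right ((EB_shell f₁.2).mul (EB_shell f₂.2)).nice
        ((EB_shell f₃.2).mul (EB_shell f₄.2)).nice ((EB_shell f₃'.2).mul (EB_shell f₄.2)).nice]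
      congr 1; funext x
      show (f₃.1.1.1 x + f₃'.1.1.1 x) * _ = _
      ring)
    (fun c f₃ f₄ => by
      show _ = c * DD _ (fun x => f₃.1.1.1 x * f₄.1.1.1 x)
      rw [← DD_mul_right]
      congr 1; funext x
      show (c * f₃.1.1.1 x) * _ = _
      ring)
    (fun f₃ f₄ f₄' => by
      show _ = DD _ (fun x => f₃.1.1.1 x * f₄.1.1.1 x) + DD _ (fun x => f₃.1.1.1 x * f₄'.1.1.1 x)
      rw [← DD_add_right ((EB_shell f₁.2).mul (EB_shell f₂.2)).nice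
        ((EB_shell f₃.2).mul (EB_shell f₄.2)).nice ((EB_shell f₃.2).mul (EB_shell f₄'.2)).nice]
      congr 1; funext x
      show _ * (f₄.1.1.1 x + f₄'.1.1.1 x) = _
      ring)
    (fun c f₃ f₄ => by
      show _ = c * DD _ (fun x => f₃.1.1.1 x * f₄.1.1.1 x)
      rw [← DD_mul_right]
      congr 1; funext x
      show _ * (c * f₄.1.1.1 x) = _
      ring)

theorem G4in_apply (f₁ f₂ f₃ f₄ : ↥(Shell J)) : G4in f₁ f₂ f₃ f₄ =
    DD (fun x => f₁.1.1.1 x * f₂.1.1.1 x) (fun x => f₃.1.1.1 x * f₄.1.1.1 x) := rfl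

/-- `(f₁ f₂ | f₃ f₄)` as a 4-linear form on the shell -/
def G4 (J : ℕ) :
    ↥(Shell J) →ₗ[ℝ] ↥(Shell J) →ₗ[ℝ] ↥(Shell J) →ₗ[ℝ] ↥(Shell J) →ₗ[ℝ] ℝ :=
  LinearMap.mk₂ ℝ G4in
    (fun f₁ f₁' f₂ => by
      ext f₃ f₄
      simp only [LinearMap.add_apply, G4in_apply]
      rw [← DD_add_left ((EB_shell f₁.2).mul (EB_shell f₂.2)).nice
        ((EB_shell f₁'.2).mul (EB_shell f₂.2)).nice ((EB_shell f₃.2).mul (EB_shell f₄.2)).nice]
      congr 1; funext x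
      show (f₁.1.1.1 x + f₁'.1.1.1 x) * _ = _
      ring)
    (fun c f₁ f₂ => by
      ext f₃ f₄
      simp only [LinearMap.smul_apply, G4in_apply, smul_eq_mul]
      rw [← DD_mul_left]
      congr 1; funext x
      show (c * f₁.1.1.1 x) * _ = _
      ring)
    (fun f₁ f₂ f₂' => by
      ext f₃ f₄
      simp only [LinearMap.add_apply, G4in_apply]
      rw [← DD_add_left ((EB_shell f₁.2).mul (EB_shell f₂.2)).nice
        ((EB_shell f₁.2).mul (EB_shell f₂'.2)).nice ((EB_shell f₃.2).mul (EB_shell f₄.2)).nice]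
      congr 1; funext x
      show _ * (f₂.1.1.1 x + f₂'.1.1.1 x) = _
      ring)
    (fun c f₁ f₂ => by
      ext f₃ f₄
      simp only [LinearMap.smul_apply, G4in_apply, smul_eq_mul]
      rw [← DD_mul_left]
      congr 1; funext x
      show _ * (c * f₂.1.1.1 x) = _
      ring)

theorem G4_apply (f₁ f₂ f₃ f₄ : ↥(Shell J)) : G4 J f₁ f₂ f₃ f₄ =
    DD (fun x => f₁.1.1.1 x * f₂.1.1.1 x) (fun x => f₃.1.1.1 x * f₄.1.1.1 x) := rfl

/-- the two-electron integrals of `H305` -/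
theorem gV_eq {M : ℕ} (v : Fin M → ↥(Shell J)) (a c b d : Fin M) :
    gV (fun i => (v i).1) a c b d = G4 J (v a) (v c) (v b) (v d) := rfl

theorem G4_swap12 (f₁ f₂ f₃ f₄ : ↥(Shell J)) : G4 J f₁ f₂ f₃ f₄ = G4 J f₂ f₁ f₃ f₄ := by
  rw [G4_apply, G4_apply]
  congr 1; funext x; ring

theorem G4_swap34 (f₁ f₂ f₃ f₄ : ↥(Shell J)) : G4 J f₁ f₂ f₃ f₄ = G4 J f₁ f₂ f₄ f₃ := by
  rw [G4_apply, G4_apply]
  congr 1; funext x; ring

theorem G4_swap (f₁ f₂ f₃ f₄ : ↥(Shell J)) : G4 J f₁ f₂ f₃ f₄ = G4 J f₃ f₄ f₁ f₂ := by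
  rw [G4_apply, G4_apply]
  exact DD_comm ((EB_shell f₁.2).mul (EB_shell f₂.2)).nice
    ((EB_shell f₃.2).mul (EB_shell f₄.2)).nice

/-- bounds of the two-electron integrals in the shell -/
theorem gV_bound : ∃ K : ℕ, ∀ (J : ℕ), (∀ f₁ f₂ f₃ f₄ : ↥(Shell J), |G4 J f₁ f₂ f₃ f₄| ≤
      ((J : ℝ) + 2) ^ K * (nrm f₁.1 * nrm f₂.1 * nrm f₃.1 * nrm f₄.1)) ∧
    ∀ {M : ℕ} (φ : Fin M → H1), (∀ a, φ a ∈ Shell J) → (∀ a, ip (φ a) (φ a) = 1) →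
      ∀ a c b d, |gV φ a c b d| ≤ ((J : ℝ) + 2) ^ K := by
  obtain ⟨K, hK⟩ := gStmt
  refine ⟨K, fun J => ⟨fun f₁ f₂ f₃ f₄ => hK J _ f₁.2 _ f₂.2 _ f₃.2 _ f₄.2, ?_⟩⟩
  intro M φ hφ hn a c b d
  refine (hK J _ (hφ a) _ (hφ c) _ (hφ b) _ (hφ d)).trans (le_of_eq ?_)
  have e : ∀ i, nrm (φ i) = 1 := fun i => by
    show √(ip (φ i) (φ i)) = 1
    rw [hn i, Real.sqrt_one]
  simp [e]

end

end Vale.Agent.P370.H617
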