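import Vale.Agent.P370.H617.BG
import Vale.Agent.P370.H624.Shell

/-! Moments `⟨r^k⟩` on hydrogenic shells: Kramers' recursion for all `k`, bounds up to `k = 4`,
virial identities, and the minimality of `⟨r²⟩` on the whole shell. -/

namespace Vale.Agent.P370.H617

open MvPolynomial MeasureTheory Set Real Filter Topology
open Vale.Agent.P363.H849

noncomputable section

section abstract

variable {V : Type*} [AddCommGroup V] [Module ℝ V] {b : V →ₗ[ℝ] V →ₗ[ℝ] ℝ}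
  {K r F : V →ₗ[ℝ] V} {c : ℝ}

theorem Rel.Frk (H : Rel b K r F c) (k : ℕ) (u : V) :
    F ((r ^ k) u) = (r ^ k) (F u) + (k : ℝ) • (r ^ k) u := by
  induction k with
  | zero => simp
  | succ k ih =>
    rw [pow_succ', Module.End.mul_apply, H.Fr, ih, Module.End.mul_apply]
    simp only [map_add, map_smul]
    push_cast
    module

theorem rk_comm (k : ℕ) (u : V) : (r ^ k) (r u) = r ((r ^ k) u) := by
  rw [← Module.End.mul_apply, ← Module.End.mul_apply, ← pow_succ, ← pow_succ']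

theorem Rel.Krk (H : Rel b K r F c) (k : ℕ) {h : V} (hh : K h = h) :
    K ((r ^ (k + 1)) h) = (r ^ (k + 1)) h - ((k : ℝ) + 1) • (r ^ k) (F h)
      - (((k : ℝ) + 1) * k / 2) • (r ^ k) h := by
  induction k with
  | zero =>
    simp only [zero_add, pow_one, pow_zero, Nat.cast_zero]
    rw [H.Kr, hh]
    simp
  | succ k ih =>
    rw [pow_succ' r (k + 1), Module.End.mul_apply, H.Kr, ih, H.Frk (k + 1) h]
    simp only [map_sub, map_smul, pow_succ' r k, Module.End.mul_apply]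
    push_cast
    module

theorem Rel.KrkF (H : Rel b K r F c) (k : ℕ) {h : V} (hh : K h = h) :
    K ((r ^ (k + 1)) (F h)) = (r ^ (k + 1)) (F h) + (2 * (k : ℝ) + 3) • (r ^ (k + 1)) h
      - (((k : ℝ) + 2) * c) • (r ^ (k + 2)) h - ((k : ℝ) + 1) • (r ^ k) (cas K r F c h)
      - (((k : ℝ) + 1) * (k + 2) / 2) • (r ^ k) (F h) := by
  induction k with
  | zero =>
    simp only [zero_add, pow_one, pow_zero, Nat.cast_zero]
    rw [H.Kr, H.KF, hh, H.FFh hh, pow_succ', pow_one]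
    simp only [map_add, map_sub, map_smul, Module.End.mul_apply, Module.End.one_apply]
    module
  | succ k ih =>
    rw [pow_succ' r (k + 1), Module.End.mul_apply, H.Kr, ih, H.Frk (k + 1) (F h), H.FFh hh]
    simp only [map_sub, map_add, map_smul, pow_succ' r (k + 2), pow_succ' r (k + 1),
      pow_succ' r k, Module.End.mul_apply, rk_comm]
    push_cast
    module

/-- Kramers' recursion. -/
theorem Rel.kramers_rec (H : Rel b K r F c) (k : ℕ) {g h : V} (hg : K g = g) (hh : K h = h) :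
    ((k : ℝ) + 2) * c * b g ((r ^ (k + 2)) h) = (2 * (k : ℝ) + 3) * b g ((r ^ (k + 1)) h)
      - ((k : ℝ) + 1) * b g ((r ^ k) (cas K r F c h))
      + ((k : ℝ) * (k + 1) * (k + 2) / 4) * b g ((r ^ k) h) := by
  have e1 : b g (K ((r ^ (k + 1)) (F h))) = b g ((r ^ (k + 1)) (F h)) := by rw [← H.hK, hg]
  have e2 : b g (K ((r ^ (k + 1)) h)) = b g ((r ^ (k + 1)) h) := by rw [← H.hK, hg]
  rw [H.KrkF k hh] at e1
  rw [H.Krk k hh] at e2
  simp only [map_add, map_sub, map_smul, smul_eq_mul] at e1 e2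
  have hk : (k : ℝ) + 1 ≠ 0 := by positivity
  have e3 : b g ((r ^ k) (F h)) = - ((k : ℝ) / 2) * b g ((r ^ k) h) := by
    have : ((k : ℝ) + 1) * b g ((r ^ k) (F h)) = ((k : ℝ) + 1) * (- ((k : ℝ) / 2) * b g ((r ^ k) h)) := by
      linarith
    exact mul_left_cancel₀ hk this
  rw [e3] at e1
  linarith

end abstract

/-- Spectral bound without exceptional eigenspace. -/
theorem spec_bound' {V : Type*} [AddCommGroup V] [Module ℝ V] [FiniteDimensional ℝ V]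
    (B : V →ₗ[ℝ] V →ₗ[ℝ] ℝ) (hs : ∀ u v, B u v = B v u) (h0 : ∀ u, 0 ≤ B u u)
    (hd : ∀ u, B u u = 0 → u = 0) (A : V →ₗ[ℝ] V) (hA : ∀ u v, B (A u) v = B u (A v))
    (c : ℝ) (heig : ∀ (μ : ℝ) (v : V), v ≠ 0 → A v = μ • v → μ ≤ c)
    (u : V) : B u (A u) ≤ c * B u u := by
  refine spec_bound B hs h0 hd A hA c (c + 1) (fun μ v hv h => Or.inr (heig μ v hv h)) u ?_
  intro m hm
  by_cases h : m = 0
  · rw [h, map_zero]
  · have := heig _ m h hm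
    linarith

/-! ### moments on pairs -/

/-- `∫ r^k f g` -/
def mom (κ : ℝ) (k : ℕ) (u v : Poly × Poly) : ℝ := ∫ x : R3, ‖x‖ ^ k * (wv κ u x * wv κ v x)

theorem wv_rLk (κ : ℝ) (k : ℕ) (u : Poly × Poly) (x : R3) :
    wv κ ((rL ^ k) u) x = ‖x‖ ^ k * wv κ u x := by
  induction k with
  | zero => simp
  | succ k ih => rw [pow_succ', Module.End.mul_apply, wv_rL, ih]; ring

theorem bP_rk {κ : ℝ} (hκ : 0 < κ) (k : ℕ) (u v : Poly × Poly) :
    bP hκ u ((rL ^ (k + 1)) v) = mom κ k u v := by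
  rw [bP_int, mom]
  apply integral_congr_ae
  filter_upwards [ae_ne_zero] with x hx
  have hx0 : ‖x‖ ≠ 0 := norm_ne_zero_iff.2 hx
  simp only [wv_rLk]
  rw [pow_succ]
  field_simp

theorem mom_zero {κ : ℝ} (hκ : 0 < κ) (u v : Poly × Poly) :
    mom κ 0 u v = ip (Phi hκ u) (Phi hκ v) := by
  rw [← bP_rk hκ, zero_add, pow_one, bP_rL]

theorem mom_two {κ : ℝ} (u v : Poly × Poly) : mom κ 2 u v = r2 κ u v := rfl

/-- integrability of all moments -/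
theorem mom_integrable {κ : ℝ} (hκ : 0 < κ) (k : ℕ) (u v : Poly × Poly) :
    Integrable fun x : R3 => ‖x‖ ^ k * (wv κ u x * wv κ v x) := by
  have h := (m1 (Phi hκ u)).integrable_mul (m1 (Phi hκ ((rL ^ k) v)))
  refine h.congr ?_
  filter_upwards with x
  show wv κ u x * wv κ ((rL ^ k) v) x = _
  rw [wv_rLk]; ring

theorem mom_nonneg {κ : ℝ} (k : ℕ) (u : Poly × Poly) : 0 ≤ mom κ k u u :=
  integral_nonneg fun x => mul_nonneg (pow_nonneg (norm_nonneg x) k) (mul_self_nonneg _)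

theorem mom_def {κ : ℝ} (hκ : 0 < κ) (k : ℕ) (u : Poly × Poly) (h : mom κ k u u = 0) : u = 0 := by
  apply wv_inj (κ := κ)
  have h1 : (fun x : R3 => ‖x‖ ^ k * (wv κ u x * wv κ u x)) =ᵐ[volume] 0 := by
    rw [← integral_eq_zero_iff_of_nonneg]
    · exact h
    · intro x; exact mul_nonneg (pow_nonneg (norm_nonneg x) k) (mul_self_nonneg _)
    · exact mom_integrable hκ k u u
  have h2 : wv κ u =ᵐ[volume] fun _ => (0 : ℝ) := by
    filter_upwards [h1, ae_ne_zero] with x hx hx0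
    have hn : ‖x‖ ≠ 0 := norm_ne_zero_iff.2 hx0
    have h3 : ‖x‖ ^ k ≠ 0 := pow_ne_zero k hn
    simpa [hn] using hx
  exact (wv_continuous κ u).ae_eq_iff_eq (μ := volume) (continuous_const (y := (0 : ℝ))) |>.1 h2

theorem mom_symm (κ : ℝ) (k : ℕ) (v w : Poly × Poly) : mom κ k v w = mom κ k w v := by
  unfold mom; congr 1; funext x; ring

theorem L2_rLk (k : ℕ) (v : Poly × Poly) : L2 ((rL ^ k) v) = (rL ^ k) (L2 v) := by
  induction k with
  | zero => simp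
  | succ k ih =>
    have h := (rel_zero 1).cas_r ((rL ^ k) v)
    rw [L2_eq 1] at h
    rw [pow_succ', Module.End.mul_apply, Module.End.mul_apply, h, ih]

theorem mom_L2_symm {κ : ℝ} (hκ : 0 < κ) (k : ℕ) (v w : Poly × Poly) :
    mom κ k (L2 v) w = mom κ k v (L2 w) := by
  rw [← bP_rk hκ, ← bP_rk hκ, ← L2_rLk, ← L2_eq κ, (rel_bP hκ).cas_symm]

theorem eig_L2 {v : Poly × Poly} {μ : ℝ} {N : ℕ} (hU : v ∈ Un N) (hv : v ≠ 0)
    (h : L2 v = μ • v) : ∃ l : ℕ, l < N ∧ μ = l * (l + 1) := by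
  by_cases hp : v.1 = 0
  · have hq : v.2 ≠ 0 := fun hq => hv (Prod.ext hp hq)
    obtain ⟨l, hl, hμ⟩ := Lp_eig (N - 1) hU.2 hq (congrArg Prod.snd h)
    exact ⟨l, by omega, hμ⟩
  · exact Lp_eig N hU.1 hp (congrArg Prod.fst h)

/-- `∫ r^(k-1) f g` restricted to `Un N` -/
def BU {κ : ℝ} (hκ : 0 < κ) (N k : ℕ) : Un N →ₗ[ℝ] Un N →ₗ[ℝ] ℝ :=
  ((bP hκ).compl₁₂ LinearMap.id (rL ^ k)).compl₁₂ (Un N).subtype (Un N).subtype

theorem BU_apply {κ : ℝ} (hκ : 0 < κ) (N k : ℕ) (v w : Un N) :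
    BU hκ N k v w = bP hκ v ((rL ^ k) w) := rfl

theorem BU_int {κ : ℝ} (hκ : 0 < κ) (N k : ℕ) (v w : Un N) :
    BU hκ N k v w = ∫ x, ‖x‖ ^ k * (wv κ v x * wv κ w x) / ‖x‖ := by
  rw [BU_apply, bP_int]
  congr 1
  funext x
  rw [wv_rLk]; ring

theorem BU_nonneg {κ : ℝ} (hκ : 0 < κ) (N k : ℕ) (v : Un N) : 0 ≤ BU hκ N k v v := by
  rw [BU_int]
  exact integral_nonneg fun x => div_nonneg (mul_nonneg (pow_nonneg (norm_nonneg x) k)
    (mul_self_nonneg _)) (norm_nonneg x)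

theorem BU_def {κ : ℝ} (hκ : 0 < κ) (N k : ℕ) (v : Un N) (h : BU hκ N k v v = 0) : v = 0 := by
  apply Subtype.ext
  apply wv_inj (κ := κ)
  have h1 : (fun x : R3 => ‖x‖ ^ k * (wv κ v x * wv κ v x) / ‖x‖) =ᵐ[volume] 0 := by
    rw [← integral_eq_zero_iff_of_nonneg]
    · rw [← BU_int hκ]; exact h
    · intro x
      exact div_nonneg (mul_nonneg (pow_nonneg (norm_nonneg x) k) (mul_self_nonneg _))
        (norm_nonneg x)
    · have h2 := bc_integrable hardyInt (Phi hκ v) (Phi hκ ((rL ^ k) v))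
      refine h2.congr ?_
      filter_upwards with x
      show wv κ v x * wv κ ((rL ^ k) v) x / ‖x‖ = _
      rw [wv_rLk]; ring
  have h2 : wv κ v =ᵐ[volume] fun _ => (0 : ℝ) := by
    filter_upwards [h1, ae_ne_zero] with x hx hx0
    have hn : ‖x‖ ≠ 0 := norm_ne_zero_iff.2 hx0
    simpa [hn] using hx
  exact (wv_continuous κ v).ae_eq_iff_eq (μ := volume) (continuous_const (y := (0 : ℝ))) |>.1 h2

/-- `L²` on `Un N` -/
def LU (N : ℕ) : Un N →ₗ[ℝ] Un N := L2.restrict (fun _ hu => ⟨Lp_mem hu.1, Lp_mem hu.2⟩)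

theorem LU_coe (N : ℕ) (u : Un N) : (LU N u : Poly × Poly) = L2 u := rfl

theorem BU_symm {κ : ℝ} (hκ : 0 < κ) (N k : ℕ) (v w : Un N) : BU hκ N k v w = BU hκ N k w v := by
  rw [BU_int, BU_int]
  congr 1; funext x; ring

theorem BU_L {κ : ℝ} (hκ : 0 < κ) (N k : ℕ) (v w : Un N) :
    BU hκ N k (LU N v) w = BU hκ N k v (LU N w) := by
  rw [BU_apply, BU_apply, LU_coe, LU_coe, ← L2_rLk, ← L2_eq κ, (rel_bP hκ).cas_symm]

/-- `L²` is nonnegative for every weight `r^(k-1)`. -/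
theorem L2_nonneg {κ : ℝ} (hκ : 0 < κ) (k : ℕ) (u : Poly × Poly) :
    0 ≤ bP hκ u ((rL ^ k) (L2 u)) := by
  set N := max u.1.totalDegree u.2.totalDegree + 2 with hN
  have huN : u ∈ Un N := by
    refine ⟨?_, ?_⟩
    · exact Pn_mono (by omega) (mem_Pn_totalDegree u.1)
    · exact Pn_mono (by omega) (mem_Pn_totalDegree u.2)
  have key := spec_bound' (BU hκ N k) (BU_symm hκ N k) (BU_nonneg hκ N k) (BU_def hκ N k)
    (-(LU N)) (fun v w => by
      rw [LinearMap.neg_apply, LinearMap.neg_apply, map_neg, map_neg, LinearMap.neg_apply,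
        BU_L]) 0
    (by
      intro μ v hv hvL
      have hv0 : (v : Poly × Poly) ≠ 0 := fun h => hv (Subtype.ext h)
      have hvL1 : -(L2 (v : Poly × Poly)) = μ • (v : Poly × Poly) := congrArg Subtype.val hvL
      have hvL' : L2 (v : Poly × Poly) = (-μ) • (v : Poly × Poly) := by
        rw [neg_smul, ← hvL1, neg_neg]
      obtain ⟨l, _, hμ⟩ := eig_L2 v.2 hv0 hvL'
      have : (0 : ℝ) ≤ l * (l + 1) := by positivity
      linarith)
    ⟨u, huN⟩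
  rw [LinearMap.neg_apply, map_neg, zero_mul] at key
  have h3 : BU hκ N k ⟨u, huN⟩ (LU N ⟨u, huN⟩) = bP hκ u ((rL ^ k) (L2 u)) := rfl
  linarith

/-- `L² ≤ (N-1) N` on `Un N` for every weight `r^(k-1)`. -/
theorem L2_le {κ : ℝ} (hκ : 0 < κ) (k N : ℕ) {u : Poly × Poly} (hu : u ∈ Un N) :
    bP hκ u ((rL ^ k) (L2 u)) ≤ ((N : ℝ) - 1) * N * bP hκ u ((rL ^ k) u) := by
  refine spec_bound' (BU hκ N k) (BU_symm hκ N k) (BU_nonneg hκ N k) (BU_def hκ N k)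
    (LU N) (BU_L hκ N k) (((N : ℝ) - 1) * N)
    (by
      intro μ v hv hvL
      have hv0 : (v : Poly × Poly) ≠ 0 := fun h => hv (Subtype.ext h)
      obtain ⟨l, hl, hμ⟩ := eig_L2 v.2 hv0 (congrArg Subtype.val hvL)
      have h1 : (l : ℝ) + 1 ≤ N := by
        have : l + 1 ≤ N := by omega
        exact_mod_cast this
      have h2 : (0 : ℝ) ≤ l := Nat.cast_nonneg l
      rw [hμ]
      nlinarith)
    ⟨u, hu⟩

/-! ### consequences on a shell -/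

section shell

variable {κ : ℝ} (hκ : 0 < κ)

include hκ

/-- virial: `⟨1/r⟩ = κ²` -/
theorem virial_bc {g h : Poly × Poly} (hg : Kop κ g = g) (hh : Kop κ h = h) :
    bc hardyInt (Phi hκ g) (Phi hκ h) = κ ^ 2 * ip (Phi hκ g) (Phi hκ h) := by
  have := (rel_bP hκ).virial hg hh
  rw [bP_rL] at this
  exact this

/-- virial: `⟨∇g, ∇h⟩ = κ² ⟨g, h⟩` -/
theorem virial_dir {g h : Poly × Poly} (hg : Kop κ g = g) (hh : Kop κ h = h) :
    dir (Phi hκ g) (Phi hκ h) = κ ^ 2 * ip (Phi hκ g) (Phi hκ h) := by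
  have h1 := K_identity hardyInt hκ (Phi hκ g) h
  rw [hh, virial_bc hκ hg hh] at h1
  linarith

theorem mom_one {g h : Poly × Poly} (hg : Kop κ g = g) (hh : Kop κ h = h) :
    2 * κ ^ 2 * mom κ 1 g h = 3 * ip (Phi hκ g) (Phi hκ h)
      - κ ^ 2 * ip (Phi hκ g) (Phi hκ (L2 h)) := by
  have h1 := (rel_bP hκ).kramers_rec 0 hg hh
  have h2 : Kop κ (L2 h) = L2 h := by rw [L2_K, hh]
  have h3 := virial_bc hκ hg h2
  rw [L2_eq, zero_add, zero_add, bP_rk hκ, pow_one, bP_rL] at h1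
  simp only [Nat.cast_zero, mul_zero, zero_add, zero_mul, zero_div, add_zero, pow_zero, one_mul,
    Module.End.one_apply] at h1
  rw [bP_apply, h3] at h1
  exact h1

theorem mom_rec_le (k : ℕ) {g : Poly × Poly} (hg : Kop κ g = g) :
    ((k : ℝ) + 3) * κ ^ 2 * mom κ (k + 2) g g ≤ (2 * (k : ℝ) + 5) * mom κ (k + 1) g g
      + (((k : ℝ) + 1) * (k + 2) * (k + 3) / 4) * mom κ k g g := by
  have h1 := (rel_bP hκ).kramers_rec (k + 1) hg hg
  rw [L2_eq, show k + 1 + 2 = (k + 2) + 1 from rfl] at h1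
  have h2 := L2_nonneg hκ (k + 1) g
  simp only [bP_rk hκ] at h1 h2
  push_cast at h1
  have hk : (0 : ℝ) ≤ (k : ℝ) + 1 + 1 := by positivity
  have h3 := mul_nonneg hk h2
  linarith

theorem mom1_le {g : Poly × Poly} (hg : Kop κ g = g) :
    mom κ 1 g g ≤ 3 / 2 / κ ^ 2 * mom κ 0 g g := by
  have h1 := mom_one hκ hg hg
  have h2 := L2_nonneg hκ 1 g
  rw [pow_one, bP_rL] at h2
  rw [← mom_zero hκ g g] at h1
  have h3 : 0 < κ ^ 2 := by positivity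
  rw [div_mul_eq_mul_div, le_div_iff₀ h3]
  nlinarith [mul_nonneg h3.le h2]

end shell

/-- Bounds for `⟨r^k⟩`, `k ≤ 4`, on the shell of principal number `n ≥ 1`. -/
theorem mom_bounds {κ : ℝ} (hκ : 0 < κ) {n : ℕ} (hn : κ * n = 1) {g : Poly × Poly}
    (hg : Kop κ g = g) :
    mom κ 1 g g ≤ 3 / 2 * (n : ℝ) ^ 2 * mom κ 0 g g ∧
    mom κ 2 g g ≤ 3 * (n : ℝ) ^ 4 * mom κ 0 g g ∧
    mom κ 3 g g ≤ 15 / 2 * (n : ℝ) ^ 6 * mom κ 0 g g ∧
    mom κ 4 g g ≤ 45 / 2 * (n : ℝ) ^ 8 * mom κ 0 g g := by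
  have hn0 : (n : ℝ) ≠ 0 := by
    rintro h
    rw [h, mul_zero] at hn
    exact zero_ne_one hn
  have hn1 : (1 : ℝ) ≤ n := by
    have : n ≠ 0 := by exact_mod_cast hn0
    exact_mod_cast Nat.one_le_iff_ne_zero.2 this
  have hκn : κ ^ 2 = 1 / (n : ℝ) ^ 2 := by
    have : κ = 1 / n := by field_simp; exact hn
    rw [this]; field_simp
  set m0 := mom κ 0 g g with hm0
  set m1 := mom κ 1 g g with hm1
  set m2 := mom κ 2 g g with hm2
  set m3 := mom κ 3 g g with hm3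
  set m4 := mom κ 4 g g with hm4
  have p0 : 0 ≤ m0 := mom_nonneg 0 g
  set N : ℝ := (n : ℝ) ^ 2 with hN
  have hN1 : 1 ≤ N := one_le_pow₀ hn1
  have hN0 : 0 < N := by linarith
  have e4 : (n : ℝ) ^ 4 = N ^ 2 := by rw [hN]; ring
  have e6 : (n : ℝ) ^ 6 = N ^ 3 := by rw [hN]; ring
  have e8 : (n : ℝ) ^ 8 = N ^ 4 := by rw [hN]; ring
  rw [e4, e6, e8]
  have b1 : m1 ≤ 3 / 2 * N * m0 := by
    have := mom1_le hκ hg
    rw [hκn] at this
    refine this.trans_eq ?_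
    rw [hm0]; field_simp
  have r0 := mom_rec_le hκ 0 hg
  have r1 := mom_rec_le hκ 1 hg
  have r2' := mom_rec_le hκ 2 hg
  simp only [zero_add, Nat.reduceAdd] at r0 r1 r2'
  rw [← hm0, ← hm1, ← hm2, hκn] at r0
  rw [← hm1, ← hm2, ← hm3, hκn] at r1
  rw [← hm2, ← hm3, ← hm4, hκn] at r2'
  push_cast at r0 r1 r2'
  have s0 : m2 ≤ N / 3 * (5 * m1 + 3 / 2 * m0) := by
    have h1 : (0 + 3) * (1 / N) * m2 = 3 * m2 / N := by ring
    rw [h1, div_le_iff₀ hN0] at r0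
    nlinarith
  have s1 : m3 ≤ N / 4 * (7 * m2 + 6 * m1) := by
    have h1 : ((1 : ℝ) + 3) * (1 / N) * m3 = 4 * m3 / N := by ring
    rw [h1, div_le_iff₀ hN0] at r1
    nlinarith
  have s2 : m4 ≤ N / 5 * (9 * m3 + 15 * m2) := by
    have h1 : ((2 : ℝ) + 3) * (1 / N) * m4 = 5 * m4 / N := by ring
    rw [h1, div_le_iff₀ hN0] at r2'
    nlinarith
  have q0 : m0 ≤ N * m0 := by nlinarith
  have b2 : m2 ≤ 3 * N ^ 2 * m0 := by
    calc m2 ≤ N / 3 * (5 * m1 + 3 / 2 * m0) := s0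
      _ ≤ N / 3 * (5 * (3 / 2 * N * m0) + 3 / 2 * (N * m0)) := by gcongr
      _ = 3 * N ^ 2 * m0 := by ring
  have b3 : m3 ≤ 15 / 2 * N ^ 3 * m0 := by
    have q1 : N * m0 ≤ N ^ 2 * m0 := by nlinarith [mul_nonneg hN0.le p0]
    calc m3 ≤ N / 4 * (7 * m2 + 6 * m1) := s1
      _ ≤ N / 4 * (7 * (3 * N ^ 2 * m0) + 6 * (3 / 2 * (N * m0))) := by
          gcongr
          linarith
      _ ≤ N / 4 * (7 * (3 * N ^ 2 * m0) + 6 * (3 / 2 * (N ^ 2 * m0))) := by gcongr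
      _ = 15 / 2 * N ^ 3 * m0 := by ring
  refine ⟨b1, b2, b3, ?_⟩
  have q2 : N ^ 2 * m0 ≤ N ^ 3 * m0 := by nlinarith [mul_nonneg (sq_nonneg N) p0]
  calc m4 ≤ N / 5 * (9 * m3 + 15 * m2) := s2
    _ ≤ N / 5 * (9 * (15 / 2 * N ^ 3 * m0) + 15 * (3 * N ^ 2 * m0)) := by gcongr
    _ = N / 5 * (9 * (15 / 2 * N ^ 3 * m0) + 45 * (N ^ 2 * m0)) := by ring
    _ ≤ N / 5 * (9 * (15 / 2 * N ^ 3 * m0) + 45 * (N ^ 3 * m0)) := by gcongr
    _ = 45 / 2 * N ^ 4 * m0 := by ring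

/-- Minimality of `⟨r²⟩` on the whole shell. -/
theorem r2_lower {κ : ℝ} (hκ : 0 < κ) {n : ℕ} (hn : κ * n = 1) {u : Poly × Poly}
    (hu : u ∈ Sh κ n) :
    (n : ℝ) ^ 2 * (n + 1) * (2 * n + 1) / 2 * ip (Phi hκ u) (Phi hκ u) ≤ r2 κ u u := by
  have hn0 : (n : ℝ) ≠ 0 := by
    rintro h
    rw [h, mul_zero] at hn
    exact zero_ne_one hn
  have hκn : κ = 1 / n := by field_simp; exact hn
  have hK := (mem_Sh.1 hu).2
  have h1 := L2_le hκ 1 n (mem_Sh.1 hu).1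
  rw [pow_one, bP_rL, bP_rL] at h1
  rw [r2_formula hκ hK hK]
  have e : κ ^ 2 = 1 / (n : ℝ) ^ 2 := by rw [hκn]; field_simp
  rw [e]
  have e2 : 1 / (2 * (1 / (n : ℝ) ^ 2)) * ((5 / (1 / (n : ℝ) ^ 2) + 1) * ip (Phi hκ u) (Phi hκ u)
      - 3 * ip (Phi hκ u) (Phi hκ (L2 u)))
      = (n : ℝ) ^ 2 / 2 * ((5 * (n : ℝ) ^ 2 + 1) * ip (Phi hκ u) (Phi hκ u)
      - 3 * ip (Phi hκ u) (Phi hκ (L2 u))) := by
    field_simp
  rw [e2]
  have h2 : (0 : ℝ) ≤ (n : ℝ) ^ 2 / 2 := by positivity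
  nlinarith [mul_le_mul_of_nonneg_left h1 h2]

/-! ### in terms of the shells of `H624` -/

open Vale.Agent.P370.H624 (Shell ShellP sk sk_pos sk_mul)

/-- `∫ r^k f²` for `f ∈ H¹` -/
def mo (k : ℕ) (w : H1) : ℝ := ∫ x : R3, ‖x‖ ^ k * w.1.1 x ^ 2

theorem mo_Phi {κ : ℝ} (hκ : 0 < κ) (k : ℕ) (u : Poly × Poly) :
    mo k (Phi hκ u) = mom κ k u u := by
  unfold mo mom
  congr 1
  funext x
  rw [Phi_fst]; ring

theorem sk_mul' (j : ℕ) : sk j * ((j + 1 : ℕ) : ℝ) = 1 := by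
  push_cast
  exact sk_mul j

/-- everything about `Shell j` (principal number `n = j + 1`) in one statement -/
theorem shell_moments (j : ℕ) {w : H1} (hw : w ∈ Shell j) :
    bc hardyInt w w = ip w w / ((j : ℝ) + 1) ^ 2 ∧
    dir w w = ip w w / ((j : ℝ) + 1) ^ 2 ∧
    ((j : ℝ) + 1) ^ 2 * (j + 2) * (2 * j + 3) / 2 * ip w w ≤ mo 2 w ∧
    mo 1 w ≤ 3 / 2 * ((j : ℝ) + 1) ^ 2 * ip w w ∧
    mo 2 w ≤ 3 * ((j : ℝ) + 1) ^ 4 * ip w w ∧
    mo 3 w ≤ 15 / 2 * ((j : ℝ) + 1) ^ 6 * ip w w ∧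
    mo 4 w ≤ 45 / 2 * ((j : ℝ) + 1) ^ 8 * ip w w := by
  obtain ⟨u, hu, rfl⟩ := hw
  obtain ⟨hU, hK⟩ := H624.mem_ShellP.1 hu
  have hn := sk_mul' j
  have hj : ((j : ℝ) + 1) ≠ 0 := by positivity
  have hs : sk j ^ 2 = 1 / ((j : ℝ) + 1) ^ 2 := by
    unfold Vale.Agent.P370.H624.sk; field_simp
  have h1 := virial_bc (sk_pos j) hK hK
  have h2 := virial_dir (sk_pos j) hK hK
  have h3 := mom_bounds (sk_pos j) hn hK
  have h4 := r2_lower (sk_pos j) hn (mem_Sh.2 ⟨hU, hK⟩)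
  rw [mom_zero (sk_pos j)] at h3
  rw [hs] at h1 h2
  push_cast at h3 h4
  refine ⟨by rw [h1]; ring, by rw [h2]; ring, ?_, ?_, ?_, ?_, ?_⟩
  · rw [mo_Phi]
    refine le_of_eq_of_le ?_ h4
    ring
  · rw [mo_Phi]; exact h3.1
  · rw [mo_Phi]; exact h3.2.1
  · rw [mo_Phi]; exact h3.2.2.1
  · rw [mo_Phi]; exact h3.2.2.2

/-- polarised virial identities on `Shell j` -/
theorem shell_virial (j : ℕ) {v w : H1} (hv : v ∈ Shell j) (hw : w ∈ Shell j) :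
    bc hardyInt v w = ip v w / ((j : ℝ) + 1) ^ 2 ∧ dir v w = ip v w / ((j : ℝ) + 1) ^ 2 := by
  obtain ⟨u, hu, rfl⟩ := hv
  obtain ⟨u', hu', rfl⟩ := hw
  have hK := (H624.mem_ShellP.1 hu).2
  have hK' := (H624.mem_ShellP.1 hu').2
  have hs : sk j ^ 2 = 1 / ((j : ℝ) + 1) ^ 2 := by
    unfold Vale.Agent.P370.H624.sk; field_simp
  have h1 := virial_bc (sk_pos j) hK hK'
  have h2 := virial_dir (sk_pos j) hK hK'
  rw [hs] at h1 h2
  exact ⟨by rw [h1]; ring, by rw [h2]; ring⟩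

/-- all moments of shell functions are finite -/
theorem shell_mo_integrable (j k : ℕ) {v w : H1} (hv : v ∈ Shell j) (hw : w ∈ Shell j) :
    Integrable fun x : R3 => ‖x‖ ^ k * (v.1.1 x * w.1.1 x) := by
  obtain ⟨u, hu, rfl⟩ := hv
  obtain ⟨u', hu', rfl⟩ := hw
  exact mom_integrable (sk_pos j) k u u'

end

end Vale.Agent.P370.H617
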