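import Vale.Agent.P370.H617.Repr

/-! **Block P2b**: the norms `Bnd` of `H198/LatDefs` for products of shell functions. -/

namespace Vale.Agent.P370.H617

open MeasureTheory Set Real Filter Topology
open Vale.Agent.P363.H849
open Vale.Agent.P370.H198 (IsLap Bnd)
open Vale.Agent.P370.H624 (Shell ShellP sk sk_pos sk_mul)

noncomputable section

theorem sk_le_one (j : ℕ) : sk j ≤ 1 := by
  unfold Vale.Agent.P370.H624.sk
  rw [div_le_one (by positivity)]
  have : (0 : ℝ) ≤ j := Nat.cast_nonneg j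
  linarith

/-- sup bound for elements of `Shell j` -/
theorem shell_sup (j : ℕ) {w : H1} (hw : w ∈ Shell j) (z : R3) :
    |w.1.1 z| ≤ 493 * ((j : ℝ) + 1) ^ 4 * √(ip w w) := by
  obtain ⟨u, hu, rfl⟩ := hw
  have hK := (H624.mem_ShellP.1 hu).2
  have h := sup_le (sk_pos j) (sk_mul' j) hK z
  push_cast at h
  exact h

/-- representation of elements of `Shell j` -/
theorem shell_repr (j : ℕ) {w : H1} (hw : w ∈ Shell j) (z : R3) :
    -(4 * π) * w.1.1 z = ∫ y, (sk j ^ 2 - 2 / ‖y‖) * w.1.1 y / ‖y - z‖ := by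
  obtain ⟨u, hu, rfl⟩ := hw
  exact repr_shell (sk_pos j) (H624.mem_ShellP.1 hu).2 z

theorem shell_l1 (j : ℕ) {w : H1} (hw : w ∈ Shell j) :
    ∫ y, |w.1.1 y| ≤ 29 * ((j : ℝ) + 1) ^ 4 * √(ip w w) := by
  obtain ⟨u, hu, rfl⟩ := hw
  have hK := (H624.mem_ShellP.1 hu).2
  have h := l1_le (sk_pos j) (sk_mul' j) hK
  push_cast at h
  exact h

theorem shell_pow4 (j : ℕ) {w : H1} (hw : w ∈ Shell j) :
    Integrable (fun x : R3 => (1 + ‖x‖ ^ 4) * w.1.1 x ^ 2) ∧
    ∫ x : R3, (1 + ‖x‖ ^ 4) * w.1.1 x ^ 2 ≤ 47 / 2 * ((j : ℝ) + 1) ^ 8 * ip w w := by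
  obtain ⟨u, hu, rfl⟩ := hw
  have hK := (H624.mem_ShellP.1 hu).2
  constructor
  · refine ((mom_integrable (sk_pos j) 0 u u).add (mom_integrable (sk_pos j) 4 u u)).congr ?_
    filter_upwards with x
    simp only [Pi.add_apply]
    show _ = (1 + ‖x‖ ^ 4) * wv (sk j) u x ^ 2
    ring
  · have h := int_one_add_pow4 (sk_pos j) (sk_mul' j) hK
    push_cast at h
    exact h

/-- The Laplacian of the product of `f ∈ Shell i` and `g ∈ Shell j`. -/
def LP (i j : ℕ) (f g : H1) (x : R3) : ℝ :=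
  2 * (∑ k, f.1.2 k x * g.1.2 k x)
    + ((sk i ^ 2 - 2 / ‖x‖) + (sk j ^ 2 - 2 / ‖x‖)) * (f.1.1 x * g.1.1 x)

theorem h1_cs (f g : H1) : Integrable (fun x => |f.1.1 x * g.1.1 x|) ∧
    ∫ x, |f.1.1 x * g.1.1 x| ≤ √(ip f f) * √(ip g g) := by
  have hc : Integrable fun x => |f.1.1 x * g.1.1 x| := ((m1 f).integrable_mul (m1 g)).abs
  refine ⟨hc, ?_⟩
  exact cs_int (a := fun x => f.1.1 x * f.1.1 x) (b := fun x => g.1.1 x * g.1.1 x)
    ((m1 f).integrable_mul (m1 f)) ((m1 g).integrable_mul (m1 g)) hc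
    (fun x => mul_self_nonneg _) (fun x => mul_self_nonneg _) (fun x => abs_nonneg _)
    (fun x => by rw [sq_abs]; exact le_of_eq (by ring))

theorem bc_cs (f g : H1) : Integrable (fun x => |f.1.1 x * g.1.1 x| / ‖x‖) ∧
    ∫ x, |f.1.1 x * g.1.1 x| / ‖x‖ ≤ √(bc hardyInt f f) * √(bc hardyInt g g) := by
  have hc : Integrable fun x => |f.1.1 x * g.1.1 x| / ‖x‖ := by
    refine (bc_integrable hardyInt f g).abs.congr ?_
    filter_upwards with x
    show |f.1.1 x * g.1.1 x / ‖x‖| = _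
    rw [abs_div, abs_norm]
  refine ⟨hc, ?_⟩
  exact cs_int (a := fun x => f.1.1 x * f.1.1 x / ‖x‖) (b := fun x => g.1.1 x * g.1.1 x / ‖x‖)
    (bc_integrable hardyInt f f) (bc_integrable hardyInt g g) hc
    (fun x => div_nonneg (mul_self_nonneg _) (norm_nonneg _))
    (fun x => div_nonneg (mul_self_nonneg _) (norm_nonneg _))
    (fun x => div_nonneg (abs_nonneg _) (norm_nonneg _))
    (fun x => by rw [div_pow, sq_abs]; exact le_of_eq (by ring))

theorem grad_cs (f g : H1) : Integrable (fun x => |∑ k, f.1.2 k x * g.1.2 k x|) ∧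
    ∫ x, |∑ k, f.1.2 k x * g.1.2 k x| ≤ √(dir f f) * √(dir g g) := by
  have hd : ∀ f g : H1, Integrable fun x => ∑ k, f.1.2 k x * g.1.2 k x := fun f g =>
    integrable_finsetSum _ fun k _ => (m2 f k).integrable_mul (m2 g k)
  have hdi : ∀ f : H1, ∫ x, ∑ k, f.1.2 k x * f.1.2 k x = dir f f := fun f => by
    have hk : ∀ k ∈ (Finset.univ : Finset (Fin 3)),
        Integrable fun x => f.1.2 k x * f.1.2 k x := fun k _ => (m2 f k).integrable_mul (m2 f k)
    rw [dir_apply, integral_finsetSum _ hk]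
  refine ⟨(hd f g).abs, ?_⟩
  rw [← hdi f, ← hdi g]
  refine cs_int (hd f f) (hd g g) (hd f g).abs
    (fun x => Finset.sum_nonneg fun k _ => mul_self_nonneg _)
    (fun x => Finset.sum_nonneg fun k _ => mul_self_nonneg _) (fun x => abs_nonneg _)
    (fun x => ?_)
  rw [sq_abs]
  have := Finset.sum_mul_sq_le_sq_mul_sq Finset.univ (fun k => f.1.2 k x) (fun k => g.1.2 k x)
  simpa only [sq] using this

theorem LP_integrable (i j : ℕ) (f g : H1) : Integrable (LP i j f g) := by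
  have h1 : Integrable fun x => ∑ k, f.1.2 k x * g.1.2 k x :=
    integrable_finsetSum _ fun k _ => (m2 f k).integrable_mul (m2 g k)
  have h2 : Integrable fun x => f.1.1 x * g.1.1 x := (m1 f).integrable_mul (m1 g)
  have h3 := bc_integrable hardyInt f g
  have h4 := (h1.const_mul 2).add ((h2.const_mul (sk i ^ 2 + sk j ^ 2)).add (h3.const_mul (-4)))
  refine h4.congr ?_
  filter_upwards with x
  simp only [Pi.add_apply, LP]
  ring

theorem LP_le (i j : ℕ) {f g : H1} (hf : f ∈ Shell i) (hg : g ∈ Shell j) :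
    ∫ x, |LP i j f g x| ≤ 8 * (√(ip f f) * √(ip g g)) := by
  obtain ⟨i1, b1⟩ := grad_cs f g
  obtain ⟨i2, b2⟩ := h1_cs f g
  obtain ⟨i3, b3⟩ := bc_cs f g
  have hle : ∫ x, |LP i j f g x| ≤ ∫ x, (2 * |∑ k, f.1.2 k x * g.1.2 k x|
      + (2 * |f.1.1 x * g.1.1 x| + 4 * (|f.1.1 x * g.1.1 x| / ‖x‖))) := by
    apply integral_mono (LP_integrable i j f g).abs
    · exact (i1.const_mul 2).add ((i2.const_mul 2).add (i3.const_mul 4))
    · intro x
      show |LP i j f g x| ≤ 2 * |∑ k, f.1.2 k x * g.1.2 k x|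
        + (2 * |f.1.1 x * g.1.1 x| + 4 * (|f.1.1 x * g.1.1 x| / ‖x‖))
      unfold LP
      refine (abs_add_le _ _).trans ?_
      rw [abs_mul, abs_mul _ (f.1.1 x * g.1.1 x), abs_of_pos (by norm_num : (0 : ℝ) < 2)]
      have h1 : |sk i ^ 2 - 2 / ‖x‖ + (sk j ^ 2 - 2 / ‖x‖)| ≤ 2 + 4 / ‖x‖ := by
        have a1 : sk i ^ 2 ≤ 1 := pow_le_one₀ (sk_pos i).le (sk_le_one i)
        have a2 : sk j ^ 2 ≤ 1 := pow_le_one₀ (sk_pos j).le (sk_le_one j)
        have a3 : 0 ≤ 2 / ‖x‖ := by positivity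
        have a4 : 4 / ‖x‖ = 2 * (2 / ‖x‖) := by ring
        rw [abs_le, a4]
        constructor <;> nlinarith [sq_nonneg (sk i), sq_nonneg (sk j)]
      have h2 := mul_le_mul_of_nonneg_right h1 (abs_nonneg (f.1.1 x * g.1.1 x))
      have e : (2 + 4 / ‖x‖) * |f.1.1 x * g.1.1 x|
          = 2 * |f.1.1 x * g.1.1 x| + 4 * (|f.1.1 x * g.1.1 x| / ‖x‖) := by ring
      rw [e] at h2
      linarith
  have hv : ∫ x, (2 * |∑ k, f.1.2 k x * g.1.2 k x|
      + (2 * |f.1.1 x * g.1.1 x| + 4 * (|f.1.1 x * g.1.1 x| / ‖x‖)))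
      = 2 * (∫ x, |∑ k, f.1.2 k x * g.1.2 k x|) + (2 * (∫ x, |f.1.1 x * g.1.1 x|)
        + 4 * ∫ x, |f.1.1 x * g.1.1 x| / ‖x‖) := by
    have k1 := i1.const_mul 2
    have k2 : Integrable fun x => 2 * |f.1.1 x * g.1.1 x| + 4 * (|f.1.1 x * g.1.1 x| / ‖x‖) :=
      (i2.const_mul 2).add (i3.const_mul 4)
    rw [integral_add k1 k2, integral_add (i2.const_mul 2) (i3.const_mul 4), integral_const_mul,
      integral_const_mul, integral_const_mul]
  have mf := shell_moments i hf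
  have mg := shell_moments j hg
  have hsq : ∀ (m : ℕ) (w : H1), √(ip w w / ((m : ℝ) + 1) ^ 2) ≤ √(ip w w) := by
    intro m w
    apply Real.sqrt_le_sqrt
    apply div_le_self (ip_nonneg w)
    apply one_le_pow₀
    have : (0 : ℝ) ≤ m := Nat.cast_nonneg m
    linarith
  have c1 : √(dir f f) * √(dir g g) ≤ √(ip f f) * √(ip g g) := by
    rw [mf.2.1, mg.2.1]
    exact mul_le_mul (hsq i f) (hsq j g) (Real.sqrt_nonneg _) (Real.sqrt_nonneg _)
  have c2 : √(bc hardyInt f f) * √(bc hardyInt g g) ≤ √(ip f f) * √(ip g g) := by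
    rw [mf.1, mg.1]
    exact mul_le_mul (hsq i f) (hsq j g) (Real.sqrt_nonneg _) (Real.sqrt_nonneg _)
  rw [hv] at hle
  linarith

/-- **Block P2b.** -/
theorem bnd_prod (i j : ℕ) {f g : H1} (hf : f ∈ Shell i) (hg : g ∈ Shell j) :
    Bnd (fun x => f.1.1 x * g.1.1 x) (LP i j f g)
      (250000 * (((i : ℝ) + 1) ^ 4 * ((j : ℝ) + 1) ^ 4) * (√(ip f f) * √(ip g g))) := by
  have hi : (1 : ℝ) ≤ ((i : ℝ) + 1) ^ 4 := one_le_pow₀ (by
    have : (0 : ℝ) ≤ i := Nat.cast_nonneg i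
    linarith)
  have hj : (1 : ℝ) ≤ ((j : ℝ) + 1) ^ 4 := one_le_pow₀ (by
    have : (0 : ℝ) ≤ j := Nat.cast_nonneg j
    linarith)
  set A := ((i : ℝ) + 1) ^ 4 with hA
  set B := ((j : ℝ) + 1) ^ 4 with hB
  have hAB : 1 ≤ A * B := by nlinarith
  set F := √(ip f f) with hF
  set G' := √(ip g g) with hG
  have F0 : 0 ≤ F := Real.sqrt_nonneg _
  have G0 : 0 ≤ G' := Real.sqrt_nonneg _
  have FG : 0 ≤ F * G' := mul_nonneg F0 G0
  have FG1 : F * G' ≤ A * B * (F * G') := by nlinarith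
  constructor
  · intro x
    have h1 := shell_sup i hf x
    have h2 := shell_sup j hg x
    rw [← hA] at h1
    rw [← hB] at h2
    show |f.1.1 x * g.1.1 x| ≤ _
    rw [abs_mul]
    calc |f.1.1 x| * |g.1.1 x| ≤ (493 * A * F) * (493 * B * G') :=
          mul_le_mul h1 h2 (abs_nonneg _) (by positivity)
      _ = 243049 * (A * B) * (F * G') := by ring
      _ ≤ 250000 * (A * B) * (F * G') := by nlinarith
  · obtain ⟨i1, b1⟩ := shell_pow4 i hf
    obtain ⟨i2, b2⟩ := shell_pow4 j hg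
    have hc : Integrable fun x : R3 => (1 + ‖x‖ ^ 4) * |f.1.1 x * g.1.1 x| := by
      refine (i1.add i2).mono' ?_ ?_
      · exact (by fun_prop : Continuous fun x : R3 => 1 + ‖x‖ ^ 4).aestronglyMeasurable.mul
          ((m1 f).1.mul (m1 g).1).norm
      · filter_upwards with x
        rw [Real.norm_eq_abs, abs_of_nonneg (by positivity)]
        simp only [Pi.add_apply]
        have h3 : |f.1.1 x * g.1.1 x| ≤ f.1.1 x ^ 2 + g.1.1 x ^ 2 := by
          rw [abs_le]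
          constructor <;> nlinarith [sq_nonneg (f.1.1 x + g.1.1 x), sq_nonneg (f.1.1 x - g.1.1 x)]
        have h4 : 0 ≤ 1 + ‖x‖ ^ 4 := by positivity
        nlinarith [mul_le_mul_of_nonneg_left h3 h4]
    have h1 := cs_int i1 i2 hc (fun x => by positivity) (fun x => by positivity)
      (fun x => by positivity) (fun x => by
        rw [mul_pow, sq_abs]; exact le_of_eq (by ring))
    refine h1.trans ?_
    have e1 : √(∫ x : R3, (1 + ‖x‖ ^ 4) * f.1.1 x ^ 2) ≤ 5 * A * F := by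
      apply Real.sqrt_le_iff.2
      refine ⟨by positivity, b1.trans ?_⟩
      rw [mul_pow, hF, Real.sq_sqrt (ip_nonneg f), hA]
      have : 0 ≤ ((i : ℝ) + 1) ^ 8 * ip f f := mul_nonneg (by positivity) (ip_nonneg f)
      nlinarith
    have e2 : √(∫ x : R3, (1 + ‖x‖ ^ 4) * g.1.1 x ^ 2) ≤ 5 * B * G' := by
      apply Real.sqrt_le_iff.2
      refine ⟨by positivity, b2.trans ?_⟩
      rw [mul_pow, hG, Real.sq_sqrt (ip_nonneg g), hB]
      have : 0 ≤ ((j : ℝ) + 1) ^ 8 * ip g g := mul_nonneg (by positivity) (ip_nonneg g)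
      nlinarith
    calc _ ≤ (5 * A * F) * (5 * B * G') :=
          mul_le_mul e1 e2 (Real.sqrt_nonneg _) (by positivity)
      _ = 25 * (A * B) * (F * G') := by ring
      _ ≤ 250000 * (A * B) * (F * G') := by nlinarith
  · refine (LP_le i j hf hg).trans ?_
    nlinarith

end

end Vale.Agent.P370.H617
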