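import Vale.Agent.P370.H305.Steps
import Vale.Agent.P370.H617.Prod
import Vale.Agent.P370.H993.ShellLap
import Vale.Agent.P370.H758.Back
import Vale.Agent.P370.H115.Small

/-! The statements `P2Stmt`, `MomStmt`, `RingShellStmt`, `GStmt` of `H305/Blocks`. -/

namespace Vale.Agent.P370.H617

open MeasureTheory Set Real Filter Topology
open Vale.Agent.P363.H849
open Vale.Agent.P370.H198 (IsLap Bnd)
open Vale.Agent.P370.H624 (Shell ShellP sk sk_pos sk_mul)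
open Vale.Agent.P370.H305 (nrm)

noncomputable section

theorem ringShellStmt : H305.RingShellStmt := fun J a _ =>
  ⟨H758.exists_ringC J a, H758.exists_ringS J a⟩

theorem momStmt : H305.MomStmt := by
  intro J f hf
  refine ⟨?_, fun a => H758.r2_ringC hf a⟩
  have h := (shell_moments J hf).2.2.1
  have e : mo 2 f = ∫ x, ‖x‖ ^ 2 * (f.1.1 x * f.1.1 x) := by
    unfold mo
    congr 1; funext x; ring
  rw [e] at h
  exact h

/-- `IsLap` for products of shell functions -/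
theorem isLap_shell (i j : ℕ) {f g : H1} (hf : f ∈ Shell i) (hg : g ∈ Shell j) :
    IsLap (fun x => f.1.1 x * g.1.1 x) (LP i j f g) := by
  obtain ⟨u, hu, rfl⟩ := hf
  obtain ⟨v, hv, rfl⟩ := hg
  have h := H993.isLap_eig (sk_pos i) (sk_pos j) (H624.mem_ShellP.1 hu).2 (H624.mem_ShellP.1 hv).2
  have e : LP i j (Phi (sk_pos i) u) (Phi (sk_pos j) v)
      = fun x => 2 * ∑ k, wg (sk i) u k x * wg (sk j) v k x
        + (sk i ^ 2 + sk j ^ 2 - 4 / ‖x‖) * (wv (sk i) u x * wv (sk j) v x) := by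
    funext x
    unfold LP
    simp only [Phi_fst, Phi_snd]
    ring
  rw [e]
  exact h

theorem p2Stmt : H305.P2Stmt := by
  refine ⟨26, fun J f hf g hg => ⟨LP J J f g, isLap_shell J J hf hg, ?_⟩⟩
  have h := bnd_prod J J hf hg
  have h2 : 250000 * (((J : ℝ) + 1) ^ 4 * ((J : ℝ) + 1) ^ 4) * (√(ip f f) * √(ip g g))
      ≤ ((J : ℝ) + 2) ^ 26 * (nrm f * nrm g) := by
    show _ ≤ ((J : ℝ) + 2) ^ 26 * (√(ip f f) * √(ip g g))
    have hJ : (0 : ℝ) ≤ J := Nat.cast_nonneg J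
    have e1 : (250000 : ℝ) ≤ ((J : ℝ) + 2) ^ 18 := by
      calc (250000 : ℝ) ≤ 2 ^ 18 := by norm_num
        _ ≤ ((J : ℝ) + 2) ^ 18 := by gcongr; linarith
    have e2 : ((J : ℝ) + 1) ^ 4 * ((J : ℝ) + 1) ^ 4 ≤ ((J : ℝ) + 2) ^ 8 := by
      rw [← pow_add]
      gcongr
      linarith
    calc 250000 * (((J : ℝ) + 1) ^ 4 * ((J : ℝ) + 1) ^ 4) * (√(ip f f) * √(ip g g))
        ≤ ((J : ℝ) + 2) ^ 18 * ((J : ℝ) + 2) ^ 8 * (√(ip f f) * √(ip g g)) := by gcongr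
      _ = ((J : ℝ) + 2) ^ 26 * (√(ip f f) * √(ip g g)) := by rw [← pow_add]
  exact ⟨fun x => (h.sup x).trans h2, h.mom.trans h2, h.lap.trans h2⟩

theorem gStmt : H305.GStmt := by
  refine ⟨29, fun J f₁ h₁ f₂ h₂ f₃ h₃ f₄ h₄ => ?_⟩
  have n12 : Vale.Agent.P363.R.H10.Nice (fun x => f₁.1.1 x * f₂.1.1 x) :=
    ((H758.EB_shell h₁).mul (H758.EB_shell h₂)).nice
  have n34 : Vale.Agent.P363.R.H10.Nice (fun x => f₃.1.1 x * f₄.1.1 x) :=
    ((H758.EB_shell h₃).mul (H758.EB_shell h₄)).nice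
  have b := (bnd_prod J J h₃ h₄).sup
  have h := H115.DD_abs_le n12 n34 b (h1_cs f₁ f₂).2 (h1_cs f₃ f₄).2 one_pos
  have hJ : (0 : ℝ) ≤ J := Nat.cast_nonneg J
  show _ ≤ ((J : ℝ) + 2) ^ 29 * (√(ip f₁ f₁) * √(ip f₂ f₂) * √(ip f₃ f₃) * √(ip f₄ f₄))
  set A := √(ip f₁ f₁) * √(ip f₂ f₂) with hA
  set B := √(ip f₃ f₃) * √(ip f₄ f₄) with hB
  have A0 : 0 ≤ A := by positivity
  have B0 : 0 ≤ B := by positivity
  have hπ : π ≤ 3.15 := Real.pi_lt_d2.le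
  have e2 : ((J : ℝ) + 1) ^ 4 * ((J : ℝ) + 1) ^ 4 ≤ ((J : ℝ) + 2) ^ 8 := by
    rw [← pow_add]
    gcongr
    linarith
  have e3 : (1 : ℝ) ≤ ((J : ℝ) + 2) ^ 8 := one_le_pow₀ (by linarith)
  have e1 : (2000000 : ℝ) ≤ ((J : ℝ) + 2) ^ 21 := by
    calc (2000000 : ℝ) ≤ 2 ^ 21 := by norm_num
      _ ≤ ((J : ℝ) + 2) ^ 21 := by gcongr; linarith
  refine h.trans ?_
  calc A * (2 * π * (250000 * (((J : ℝ) + 1) ^ 4 * ((J : ℝ) + 1) ^ 4) * B) * 1 ^ 2 + B / 1)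
      ≤ A * (2 * 3.15 * (250000 * ((J : ℝ) + 2) ^ 8 * B) * 1 ^ 2 + ((J : ℝ) + 2) ^ 8 * B / 1) := by
        have : B ≤ ((J : ℝ) + 2) ^ 8 * B := by nlinarith
        gcongr
    _ = 1575001 * ((J : ℝ) + 2) ^ 8 * (A * B) := by ring
    _ ≤ ((J : ℝ) + 2) ^ 21 * ((J : ℝ) + 2) ^ 8 * (A * B) := by
        gcongr
        linarith
    _ = ((J : ℝ) + 2) ^ 29 * (√(ip f₁ f₁) * √(ip f₂ f₂) * √(ip f₃ f₃) * √(ip f₄ f₄)) := by
        rw [hA, hB, ← pow_add]; ring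

end

end Vale.Agent.P370.H617
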