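import Vale.Agent.P363.H849.Hydrogen

/-! Algebra of the Sturmian operators `K`, `r`, `F = x·∇ + 1` on pairs of polynomials, and the
Kramers type identity for `∫ r² g h` on a hydrogenic shell. -/

namespace Vale.Agent.P370.H617

open MvPolynomial
open Vale.Agent.P363.H849

noncomputable section

/-! ### abstract part -/

section abstract

variable {V : Type*} [AddCommGroup V] [Module ℝ V] (b : V →ₗ[ℝ] V →ₗ[ℝ] ℝ)
  (K r F : V →ₗ[ℝ] V) (c : ℝ)

/-- The `su(1,1)` relations; `c` is `κ²`. -/
structure Rel : Prop where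
  symm : ∀ u v, b u v = b v u
  hK : ∀ u v, b (K u) v = b u (K v)
  hr : ∀ u v, b (r u) v = b u (r v)
  Kr : ∀ u, K (r u) = r (K u) - F u
  KF : ∀ u, K (F u) = F (K u) + K u - c • r u
  Fr : ∀ u, F (r u) = r (F u) + r u

/-- the Casimir operator `L²` -/
def cas : V →ₗ[ℝ] V :=
  F.comp F + r.comp K + K.comp r - c • (r.comp r)

theorem cas_apply (u : V) : cas K r F c u = F (F u) + r (K u) + K (r u) - c • r (r u) := rfl

variable {b K r F c}

theorem Rel.hF (H : Rel b K r F c) (u v : V) : b (F u) v = - b u (F v) := by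
  have h1 : F u = r (K u) - K (r u) := by rw [H.Kr]; abel
  have h2 : F v = r (K v) - K (r v) := by rw [H.Kr]; abel
  rw [h1, h2, map_sub, map_sub, LinearMap.sub_apply, H.hr, H.hK, H.hK, H.hr]
  ring

theorem Rel.cas_symm (H : Rel b K r F c) (u v : V) :
    b (cas K r F c u) v = b u (cas K r F c v) := by
  simp only [cas_apply, map_add, map_sub, map_smul, LinearMap.add_apply, LinearMap.sub_apply,
    LinearMap.smul_apply]
  rw [H.hF, H.hF, H.hr (K u), H.hK u, H.hK (r u), H.hr u, H.hr (r u), H.hr u]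
  ring

theorem Rel.cas_r (H : Rel b K r F c) (u : V) :
    cas K r F c (r u) = r (cas K r F c u) := by
  simp only [cas_apply, map_add, map_sub, map_smul]
  rw [H.Fr u, map_add, H.Fr (F u), H.Fr u, H.Kr u, H.Kr (r u), H.Kr u, H.Fr u]
  simp only [map_sub]
  abel

theorem Rel.cas_K (H : Rel b K r F c) (u : V) :
    K (cas K r F c u) = cas K r F c (K u) := by
  simp only [cas_apply, map_add, map_sub, map_smul]
  rw [H.KF (F u), H.KF u, H.Kr (K u), H.Kr (r u), H.Kr u]
  simp only [map_add, map_sub, map_smul]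
  rw [H.Fr u, H.Kr (K u)]
  simp only [smul_sub, smul_add]
  try rw [H.KF u]
  module

/-- virial theorem, polarised -/
theorem Rel.virial (H : Rel b K r F c) {g h : V} (hg : K g = g) (hh : K h = h) :
    b g h = c * b g (r h) := by
  have h1 : b g (K (F h)) = b g (F h) := by rw [← H.hK, hg]
  rw [H.KF h, hh, map_sub, map_add, map_smul, smul_eq_mul] at h1
  linarith

theorem Rel.gF (H : Rel b K r F c) {g h : V} (hg : K g = g) (hh : K h = h) :
    b g (F h) = 0 := by
  have h1 : b g (K (r h)) = b g (r h) := by rw [← H.hK, hg]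
  rw [H.Kr h, hh, map_sub] at h1
  linarith

theorem Rel.FFh (H : Rel b K r F c) {h : V} (hh : K h = h) :
    F (F h) = cas K r F c h + F h - (2 : ℝ) • r h + c • r (r h) := by
  rw [cas_apply, H.Kr, hh]
  module

theorem Rel.id2 (H : Rel b K r F c) {g h : V} (hg : K g = g) (hh : K h = h) :
    2 * c * b g (r (r h)) = 3 * b g (r h) - b g (cas K r F c h) := by
  have h1 : b g (K (r (F h))) = b g (r (F h)) := by rw [← H.hK, hg]
  rw [H.Kr, H.KF, hh, H.FFh hh] at h1
  simp only [map_add, map_sub, map_smul, smul_eq_mul] at h1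
  rw [H.gF hg hh] at h1
  linarith

theorem Rel.grF (H : Rel b K r F c) {g h : V} (hg : K g = g) (hh : K h = h) :
    2 * b g (r (F h)) = - b g (r h) := by
  have h1 : b g (K (r (r h))) = b g (r (r h)) := by rw [← H.hK, hg]
  rw [H.Kr, H.Kr, H.Fr, hh] at h1
  simp only [map_add, map_sub] at h1
  linarith

theorem Rel.id3 (H : Rel b K r F c) {g h : V} (hg : K g = g) (hh : K h = h) :
    3 * c * b g (r (r (r h))) = 5 * b g (r (r h)) - 2 * b g (r (cas K r F c h))
      - 3 * b g (r (F h)) := by
  have h1 : b g (K (r (r (F h)))) = b g (r (r (F h))) := by rw [← H.hK, hg]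
  rw [H.Kr, H.Kr, H.Fr, H.KF, hh, H.FFh hh] at h1
  simp only [map_add, map_sub, map_smul, smul_eq_mul] at h1
  linarith

/-- the Kramers identity for `r²` -/
theorem Rel.kramers (H : Rel b K r F c) (hc : c ≠ 0) {g h : V} (hg : K g = g) (hh : K h = h) :
    b g (r (r (r h))) = 1 / (2 * c) * ((5 / c + 1) * b g (r h)
      - 3 * b g (r (cas K r F c h))) := by
  have hL : K (cas K r F c h) = cas K r F c h := by rw [H.cas_K, hh]
  have e1 := H.id2 hg hh
  have e2 := H.grF hg hh
  have e3 := H.id3 hg hh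
  have e4 := H.virial hg hL
  rw [e4] at e1
  field_simp
  linear_combination (2 * c / 3) * e3 + (5 / 3) * e1 - c * e2

end abstract

end

end Vale.Agent.P370.H617
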