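import Vale.Agent.P363.MathlibUsed
import Mathlib.Analysis.InnerProductSpace.Spectrum

/-! A symmetric operator with a spectral gap, for an abstract positive definite form. -/

namespace Vale.Agent.P370.H617

noncomputable section

/-- the inner product core of a positive definite symmetric bilinear form -/
def coreOf {V : Type*} [AddCommGroup V] [Module ℝ V] (B : V →ₗ[ℝ] V →ₗ[ℝ] ℝ)
    (hs : ∀ u v, B u v = B v u) (h0 : ∀ u, 0 ≤ B u u) (hd : ∀ u, B u u = 0 → u = 0) :
    InnerProductSpace.Core ℝ V where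
  inner u v := B u v
  conj_inner_symm u v := by simpa using hs v u
  re_inner_nonneg u := by simpa using h0 u
  add_left u v w := by simp
  smul_left u v a := by simp
  definite u h := hd u h

/-- Spectral bound off an eigenspace. -/
theorem spec_bound {V : Type*} [AddCommGroup V] [Module ℝ V] [FiniteDimensional ℝ V]
    (B : V →ₗ[ℝ] V →ₗ[ℝ] ℝ) (hs : ∀ u v, B u v = B v u) (h0 : ∀ u, 0 ≤ B u u)
    (hd : ∀ u, B u u = 0 → u = 0) (A : V →ₗ[ℝ] V) (hA : ∀ u v, B (A u) v = B u (A v))
    (c d : ℝ) (heig : ∀ (μ : ℝ) (v : V), v ≠ 0 → A v = μ • v → μ = d ∨ μ ≤ c)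
    (u : V) (hu : ∀ m, A m = d • m → B u m = 0) : B u (A u) ≤ c * B u u := by
  letI : NormedAddCommGroup V := @InnerProductSpace.Core.toNormedAddCommGroup ℝ V _ _ _
    (coreOf B hs h0 hd)
  letI : InnerProductSpace ℝ V := InnerProductSpace.ofCore (coreOf B hs h0 hd).toCore
  have hin : ∀ u v : V, inner ℝ u v = B u v := fun u v => rfl
  have hT : A.IsSymmetric := fun u v => hA u v
  set e := hT.eigenvectorBasis (rfl : Module.finrank ℝ V = Module.finrank ℝ V) with he
  have h1 : ∀ i, A (e i) = (hT.eigenvalues rfl i : ℝ) • e i := fun i =>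
    hT.apply_eigenvectorBasis rfl i
  have h2 : B u u = ∑ i, B u (e i) ^ 2 := by
    have := e.sum_sq_inner_right u
    rw [← hin, real_inner_self_eq_norm_sq, ← this]
    refine Finset.sum_congr rfl fun i _ => ?_
    rw [← hin, real_inner_comm]
  have h3 : B u (A u) = ∑ i, hT.eigenvalues rfl i * B u (e i) ^ 2 := by
    rw [← hin, ← e.sum_inner_mul_inner]
    refine Finset.sum_congr rfl fun i _ => ?_
    rw [hin, hin, ← hA, h1 i, map_smul, LinearMap.smul_apply, smul_eq_mul, hs (e i) u]
    ring
  rw [h2, h3, Finset.mul_sum]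
  apply Finset.sum_le_sum
  intro i _
  have hne : e i ≠ 0 := by
    intro h
    have := e.orthonormal.1 i
    rw [h, norm_zero] at this
    exact zero_ne_one this
  rcases heig _ (e i) hne (h1 i) with h | h
  · have : B u (e i) = 0 := hu _ (by rw [h1 i, h])
    rw [this]; simp
  · exact mul_le_mul_of_nonneg_right h (sq_nonneg _)

end

end Vale.Agent.P370.H617
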