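import Vale.Agent.P370.H617.Forms
import Vale.Agent.P370.H617.Spec

/-! **Background selection gap**: on the `n`-th hydrogenic shell the form `∫ r² f²` is minimal
exactly on the multiplet of highest angular momentum, with an explicit gap. -/

namespace Vale.Agent.P370.H617

open MvPolynomial MeasureTheory Set Real Filter Topology
open Vale.Agent.P363.H849

noncomputable section

/-! ### eigenvalues of `L²` on polynomials -/

theorem coeff_eul (p : Poly) (m : Fin 3 →₀ ℕ) : coeff m (eul p) = (m.degree : ℝ) * coeff m p := by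
  induction p using MvPolynomial.induction_on' with
  | monomial s c =>
    rw [eul_monomial, coeff_smul, coeff_monomial, smul_eq_mul]
    by_cases h : s = m
    · subst h; simp
    · simp [h]
  | add p q hp hq => rw [eul_add, coeff_add, hp, hq, coeff_add]; ring

theorem lap_Lp (p : Poly) : lap (Lp p) = Lp (lap p) := by
  simp only [Lp_apply, lap_sub, lap_add, lap_eul, eul_add, eul_smul, lap_rsq_mul]
  module

theorem Lp_mem {n : ℕ} {p : Poly} (hp : p ∈ Pn n) : Lp p ∈ Pn n := by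
  rw [Lp_apply]
  exact (Pn n).sub_mem ((Pn n).add_mem (eul_mem (eul_mem hp)) (eul_mem hp)) (rsq_lap_mem hp)

theorem Lp_eig (N : ℕ) : ∀ {p : Poly} {μ : ℝ}, p ∈ Pn N → p ≠ 0 → Lp p = μ • p →
    ∃ l : ℕ, l < N ∧ μ = l * (l + 1) := by
  induction N using Nat.strong_induction_on with
  | _ N ih =>
    intro p μ hp h0 hL
    by_cases hlap : lap p = 0
    · obtain ⟨m, hm⟩ := MvPolynomial.ne_zero_iff.1 h0
      have hmem : m ∈ p.support := MvPolynomial.mem_support_iff.2 hm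
      have hdeg : m.degree < N := by
        have := hp
        unfold Pn at this
        rw [MvPolynomial.mem_restrictSupport_iff] at this
        exact this hmem
      refine ⟨m.degree, hdeg, ?_⟩
      have h1 := congrArg (coeff m) hL
      rw [Lp_apply, hlap, mul_zero, sub_zero, coeff_add, coeff_eul, coeff_eul, coeff_smul,
        smul_eq_mul] at h1
      have h2 : ((m.degree : ℝ) * (m.degree + 1) - μ) * coeff m p = 0 := by linear_combination h1
      rcases mul_eq_zero.1 h2 with h3 | h3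
      · linarith
      · exact absurd h3 hm
    · have h1 : Lp (lap p) = μ • lap p := by rw [← lap_Lp, hL, lap_smul]
      match N, hp, ih with
      | 0, hp, _ =>
        rw [Pn_zero, Submodule.mem_bot] at hp
        exact absurd hp h0
      | 1, hp, _ => exact absurd (lap_eq_zero hp) hlap
      | N + 2, hp, ih =>
        obtain ⟨l, hl, hμ⟩ := ih N (by omega) (lap_mem hp) hlap h1
        exact ⟨l, by omega, hμ⟩

/-! ### the shell and its top multiplet -/

/-- The `n`-th shell: pairs `(p, q)` representing `(p + r q) e^{-κ r}`, `κ = 1/n`. -/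
def Sh (κ : ℝ) (n : ℕ) : Submodule ℝ (Poly × Poly) :=
  Un n ⊓ LinearMap.ker (KL κ - LinearMap.id)

theorem mem_Sh {κ : ℝ} {n : ℕ} {u : Poly × Poly} :
    u ∈ Sh κ n ↔ u ∈ Un n ∧ Kop κ u = u := by
  unfold Sh
  rw [Submodule.mem_inf, LinearMap.mem_ker, LinearMap.sub_apply, LinearMap.id_apply, sub_eq_zero,
    KL_apply]

instance Sh_fin (κ : ℝ) (n : ℕ) : FiniteDimensional ℝ (Sh κ n) :=
  Submodule.finiteDimensional_of_le (inf_le_left : Sh κ n ≤ Un n)

/-- The top multiplet (`l = n - 1`): harmonic homogeneous polynomials of degree `n - 1`. -/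
def Top (n : ℕ) : Submodule ℝ (Poly × Poly) where
  carrier := {u | u.2 = 0 ∧ eul u.1 = ((n : ℝ) - 1) • u.1 ∧ lap u.1 = 0}
  zero_mem' := by
    refine ⟨rfl, ?_, ?_⟩
    · simp [eul]
    · simp [lap]
  add_mem' := by
    rintro u v ⟨h1, h2, h3⟩ ⟨h1', h2', h3'⟩
    refine ⟨?_, ?_, ?_⟩
    · rw [Prod.snd_add, h1, h1', add_zero]
    · rw [Prod.fst_add, eul_add, h2, h2', smul_add]
    · rw [Prod.fst_add, lap_add, h3, h3', add_zero]
  smul_mem' := by
    rintro c u ⟨h1, h2, h3⟩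
    refine ⟨?_, ?_, ?_⟩
    · rw [Prod.smul_snd, h1, smul_zero]
    · rw [Prod.smul_fst, eul_smul, h2, smul_comm]
    · rw [Prod.smul_fst, lap_smul, h3, smul_zero]

theorem mem_Top {n : ℕ} {u : Poly × Poly} :
    u ∈ Top n ↔ u.2 = 0 ∧ eul u.1 = ((n : ℝ) - 1) • u.1 ∧ lap u.1 = 0 := Iff.rfl

theorem Top_K {κ : ℝ} {n : ℕ} (hκ : κ * n = 1) {u : Poly × Poly} (hu : u ∈ Top n) :
    Kop κ u = u := by
  obtain ⟨p, q⟩ := u
  obtain ⟨h1, h2, h3⟩ := hu
  simp only at h1 h2 h3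
  subst h1
  apply Prod.ext
  · simp only [Kop, h2]
    have e0 : eul (0 : Poly) = 0 := by simp [eul]
    have l0 : lap (0 : Poly) = 0 := by simp [lap]
    rw [e0, l0]
    have : κ • (((n : ℝ) - 1) • p + p) = (κ * n) • p := by module
    rw [this, hκ]
    simp
  · simp only [Kop, h3]
    have e0 : eul (0 : Poly) = 0 := by simp [eul]
    rw [e0]
    simp

theorem Top_L2 {n : ℕ} {u : Poly × Poly} (hu : u ∈ Top n) :
    L2 u = (((n : ℝ) - 1) * n) • u := by
  obtain ⟨p, q⟩ := u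
  obtain ⟨h1, h2, h3⟩ := hu
  simp only at h1 h2 h3
  subst h1
  rw [L2_apply]
  apply Prod.ext
  · simp only [Lp_apply, h2, h3, eul_smul, Prod.smul_fst, mul_zero, sub_zero]
    module
  · simp

theorem Top_Pn {n : ℕ} {u : Poly × Poly} (hu : u ∈ Top n) : u ∈ Un n := by
  obtain ⟨p, q⟩ := u
  obtain ⟨h1, h2, h3⟩ := hu
  simp only at h1 h2 h3
  subst h1
  refine ⟨?_, (Pn _).zero_mem⟩
  show p ∈ Pn n
  unfold Pn
  rw [MvPolynomial.mem_restrictSupport_iff]
  intro m hm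
  have hc : coeff m p ≠ 0 := MvPolynomial.mem_support_iff.1 hm
  have h4 := congrArg (coeff m) h2
  rw [coeff_eul, coeff_smul, smul_eq_mul] at h4
  have h5 := mul_right_cancel₀ hc h4
  show m.degree < n
  have h6 : (m.degree : ℝ) < n := by linarith
  exact_mod_cast h6

theorem Top_le_Sh {κ : ℝ} {n : ℕ} (hκ : κ * n = 1) : Top n ≤ Sh κ n := fun _ hu =>
  mem_Sh.2 ⟨Top_Pn hu, Top_K hκ hu⟩

theorem top_of_eig {κ : ℝ} {n : ℕ} (hκ : κ * n = 1) {u : Poly × Poly} (hu : u ∈ Sh κ n)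
    (hL : L2 u = (((n : ℝ) - 1) * n) • u) : u ∈ Top n := by
  have hn : n ≠ 0 := by
    rintro rfl
    simp at hκ
  have hκ0 : κ ≠ 0 := by
    rintro rfl
    simp at hκ
  obtain ⟨p, q⟩ := u
  obtain ⟨h1, h2⟩ := mem_Sh.1 hu
  have hq : q = 0 := by
    by_contra hq
    have hLq : Lp q = (((n : ℝ) - 1) * n) • q := congrArg Prod.snd hL
    obtain ⟨l, hl, hμ⟩ := Lp_eig (n - 1) (h1.2 : q ∈ Pn (n - 1)) hq hLq
    have h3 : (l : ℝ) + 1 ≤ (n : ℝ) - 1 := by
      have : l + 1 ≤ n - 1 := by omega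
      have h4 : ((l + 1 : ℕ) : ℝ) ≤ ((n - 1 : ℕ) : ℝ) := by exact_mod_cast this
      rw [Nat.cast_sub (by omega)] at h4
      push_cast at h4
      exact h4
    have h5 : (0 : ℝ) ≤ l := Nat.cast_nonneg l
    nlinarith
  subst hq
  have h3 := congrArg Prod.fst h2
  have h4 := congrArg Prod.snd h2
  have e0 : eul (0 : Poly) = 0 := by simp [eul]
  have l0 : lap (0 : Poly) = 0 := by simp [lap]
  simp only [Kop, e0, l0, mul_zero, smul_zero, add_zero, sub_zero] at h3 h4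
  have h5 : lap p = 0 := by
    have h6 : (1 / 2 : ℝ) • lap p = 0 := neg_eq_zero.1 h4
    rcases smul_eq_zero.1 h6 with h7 | h7
    · norm_num at h7
    · exact h7
  refine ⟨rfl, ?_, h5⟩
  have h6 : κ • (eul p + p) = κ • ((n : ℝ) • p) := by
    rw [h3, smul_smul, hκ, one_smul]
  have h7 : eul p + p = (n : ℝ) • p := smul_right_injective Poly hκ0 h6
  show eul p = ((n : ℝ) - 1) • p
  rw [sub_smul, one_smul, ← h7, add_sub_cancel_right]

/-- the operator `L²` on the shell -/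
def L2Sh (κ : ℝ) (n : ℕ) : Sh κ n →ₗ[ℝ] Sh κ n :=
  L2.restrict (fun u hu => by
    obtain ⟨h1, h2⟩ := mem_Sh.1 hu
    refine mem_Sh.2 ⟨⟨Lp_mem h1.1, Lp_mem h1.2⟩, ?_⟩
    rw [L2_K, h2])

theorem L2Sh_coe (κ : ℝ) (n : ℕ) (u : Sh κ n) : (L2Sh κ n u : Poly × Poly) = L2 u := rfl

/-- `∫ f g` on the shell -/
def ipSh {κ : ℝ} (hκ : 0 < κ) (n : ℕ) : Sh κ n →ₗ[ℝ] Sh κ n →ₗ[ℝ] ℝ :=
  ip.compl₁₂ ((Phi hκ).comp (Sh κ n).subtype) ((Phi hκ).comp (Sh κ n).subtype)

theorem ipSh_apply {κ : ℝ} (hκ : 0 < κ) (n : ℕ) (u v : Sh κ n) :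
    ipSh hκ n u v = ip (Phi hκ u) (Phi hκ v) := rfl

/-- `L²` is at most `(n-2)(n-1)` off the top multiplet. -/
theorem L2_gap {κ : ℝ} (hκ : 0 < κ) {n : ℕ} (hn : κ * n = 1) {u : Poly × Poly}
    (hu : u ∈ Sh κ n) (hperp : ∀ m ∈ Top n, ip (Phi hκ u) (Phi hκ m) = 0) :
    ip (Phi hκ u) (Phi hκ (L2 u)) ≤ (((n : ℝ) - 2) * (n - 1)) * ip (Phi hκ u) (Phi hκ u) := by
  have key := spec_bound (ipSh hκ n) (fun u v => by rw [ipSh_apply, ipSh_apply, ip_symm])
    (fun u => by rw [ipSh_apply]; exact ip_nonneg _)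
    (fun u h => by
      rw [ipSh_apply] at h
      exact Subtype.ext (ip_def' hκ _ h)) (L2Sh κ n)
    (fun u v => by
      rw [ipSh_apply, ipSh_apply, L2Sh_coe, L2Sh_coe]
      exact L2_symm hκ _ _) (((n : ℝ) - 2) * (n - 1)) (((n : ℝ) - 1) * n)
    (by
      intro μ v hv hvL
      have hv0 : (v : Poly × Poly) ≠ 0 := fun h => hv (Subtype.ext h)
      have hvL' : L2 (v : Poly × Poly) = μ • (v : Poly × Poly) := congrArg Subtype.val hvL
      have hvU := (mem_Sh.1 v.2).1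
      have hex : ∃ l : ℕ, l < n ∧ μ = l * (l + 1) := by
        by_cases hp : (v : Poly × Poly).1 = 0
        · have hq : (v : Poly × Poly).2 ≠ 0 := fun hq => hv0 (Prod.ext hp hq)
          obtain ⟨l, hl, hμ⟩ := Lp_eig (n - 1) hvU.2 hq (congrArg Prod.snd hvL')
          exact ⟨l, by omega, hμ⟩
        · exact Lp_eig n hvU.1 hp (congrArg Prod.fst hvL')
      obtain ⟨l, hl, hμ⟩ := hex
      by_cases hl' : l + 1 = n
      · left
        rw [hμ, ← hl']
        push_cast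
        ring
      · right
        have h1 : (l : ℝ) + 2 ≤ n := by
          have : l + 2 ≤ n := by omega
          exact_mod_cast this
        have h2 : (0 : ℝ) ≤ l := Nat.cast_nonneg l
        rw [hμ]
        nlinarith)
    ⟨u, hu⟩ (by
      intro m hm
      rw [ipSh_apply]
      apply hperp
      exact top_of_eig hn m.2 (congrArg Subtype.val hm))
  exact key

/-- No coupling: on the shell, `∫ r² g m = s_J ∫ g m` for `m` in the top multiplet. -/
theorem r2_top {κ : ℝ} (hκ : 0 < κ) {n : ℕ} (hn : κ * n = 1) {g m : Poly × Poly}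
    (hg : Kop κ g = g) (hm : m ∈ Top n) :
    r2 κ g m = (n : ℝ) ^ 2 * (n + 1) * (2 * n + 1) / 2 * ip (Phi hκ g) (Phi hκ m) := by
  have hn0 : (n : ℝ) ≠ 0 := by
    rintro h
    rw [h, mul_zero] at hn
    exact zero_ne_one hn
  have hκn : κ = 1 / n := by field_simp; exact hn
  rw [r2_formula hκ hg (Top_K hn hm), Top_L2 hm, map_smul, map_smul, smul_eq_mul]
  have e : κ ^ 2 = 1 / (n : ℝ) ^ 2 := by rw [hκn]; field_simp
  rw [e]
  field_simp
  ring

/-- **Background gap**: on the shell, orthogonally to the top multiplet,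
`∫ r² u² ≥ (s_J + 3 n² (n-1)) ∫ u²`. -/
theorem r2_gap {κ : ℝ} (hκ : 0 < κ) {n : ℕ} (hn : κ * n = 1) {u : Poly × Poly}
    (hu : u ∈ Sh κ n) (hperp : ∀ m ∈ Top n, ip (Phi hκ u) (Phi hκ m) = 0) :
    ((n : ℝ) ^ 2 * (n + 1) * (2 * n + 1) / 2 + 3 * (n : ℝ) ^ 2 * (n - 1))
      * ip (Phi hκ u) (Phi hκ u) ≤ r2 κ u u := by
  have hn0 : (n : ℝ) ≠ 0 := by
    rintro h
    rw [h, mul_zero] at hn
    exact zero_ne_one hn
  have hκn : κ = 1 / n := by field_simp; exact hn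
  have hK := (mem_Sh.1 hu).2
  have h1 := L2_gap hκ hn hu hperp
  rw [r2_formula hκ hK hK]
  have e : κ ^ 2 = 1 / (n : ℝ) ^ 2 := by rw [hκn]; field_simp
  rw [e]
  have e2 : 1 / (2 * (1 / (n : ℝ) ^ 2)) * ((5 / (1 / (n : ℝ) ^ 2) + 1) * ip (Phi hκ u) (Phi hκ u)
      - 3 * ip (Phi hκ u) (Phi hκ (L2 u)))
      = (n : ℝ) ^ 2 / 2 * ((5 * (n : ℝ) ^ 2 + 1) * ip (Phi hκ u) (Phi hκ u)
      - 3 * ip (Phi hκ u) (Phi hκ (L2 u))) := by
    field_simp
  rw [e2]
  have h2 : (0 : ℝ) ≤ (n : ℝ) ^ 2 / 2 := by positivity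
  nlinarith [mul_le_mul_of_nonneg_left h1 h2]

/-- `∫ r²` of a general shell function: orthogonal decomposition form. -/
theorem r2_decomp {κ : ℝ} (hκ : 0 < κ) {n : ℕ} (hn : κ * n = 1) {w m : Poly × Poly}
    (hw : w ∈ Sh κ n) (hperp : ∀ m ∈ Top n, ip (Phi hκ w) (Phi hκ m) = 0) (hm : m ∈ Top n) :
    (n : ℝ) ^ 2 * (n + 1) * (2 * n + 1) / 2 * ip (Phi hκ (w + m)) (Phi hκ (w + m))
      + 3 * (n : ℝ) ^ 2 * (n - 1) * ip (Phi hκ w) (Phi hκ w) ≤ r2 κ (w + m) (w + m) := by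
  have hadd : ∀ a c d : Poly × Poly, r2 κ (a + c) d = r2 κ a d + r2 κ c d := by
    intro a c d
    rw [← bP_r3 hκ, ← bP_r3 hκ, ← bP_r3 hκ, map_add, LinearMap.add_apply]
  have hadd' : ∀ a c d : Poly × Poly, r2 κ d (a + c) = r2 κ d a + r2 κ d c := by
    intro a c d
    rw [← bP_r3 hκ, ← bP_r3 hκ, ← bP_r3 hκ]
    simp only [map_add]
  have hsymm : ∀ a c : Poly × Poly, r2 κ a c = r2 κ c a := by
    intro a c
    unfold r2
    congr 1; funext x; ring
  have h1 := r2_gap hκ hn hw hperp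
  have h2 := r2_top hκ hn (mem_Sh.1 hw).2 hm
  have h3 := r2_top hκ hn (Top_K hn hm) hm
  have h4 := hperp m hm
  rw [hadd, hadd', hadd', hsymm m w, h2, h3, h4]
  simp only [map_add, LinearMap.add_apply]
  rw [ip_symm (Phi hκ m) (Phi hκ w), h4]
  linarith

end

end Vale.Agent.P370.H617
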