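import Vale.Agent.P370.H617.Ops

/-! The forms `∫ f g / r`, `∫ f g`, `∫ r² f g` on functions `(p + r q) e^{-κ r}`; the Kramers
formula for `∫ r² g h` on a shell. -/

namespace Vale.Agent.P370.H617

open MvPolynomial MeasureTheory Set Real Filter Topology
open Vale.Agent.P363.H849

noncomputable section

/-- `∫ f g / r` on pairs of polynomials -/
def bP {κ : ℝ} (hκ : 0 < κ) : Poly × Poly →ₗ[ℝ] Poly × Poly →ₗ[ℝ] ℝ :=
  (bc hardyInt).compl₁₂ (Phi hκ) (Phi hκ)

theorem bP_apply {κ : ℝ} (hκ : 0 < κ) (u v : Poly × Poly) :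
    bP hκ u v = bc hardyInt (Phi hκ u) (Phi hκ v) := rfl

theorem ev_rsq (x : R3) : ev rsq x = ‖x‖ ^ 2 := by
  rw [norm_sq_R3, rsq, ev_sum]
  simp only [ev_mul, ev_X]
  exact Finset.sum_congr rfl fun k _ => by ring

/-- multiplication by `r` at the level of values -/
theorem wv_rL (κ : ℝ) (u : Poly × Poly) (x : R3) : wv κ (rL u) x = ‖x‖ * wv κ u x := by
  simp only [wv, rL_apply, G, ev_mul, ev_rsq, hA, hB]
  ring

theorem bP_int {κ : ℝ} (hκ : 0 < κ) (u v : Poly × Poly) :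
    bP hκ u v = ∫ x, wv κ u x * wv κ v x / ‖x‖ := rfl

theorem bP_rL {κ : ℝ} (hκ : 0 < κ) (u v : Poly × Poly) :
    bP hκ u (rL v) = ip (Phi hκ u) (Phi hκ v) := by
  rw [bP_int, ip_apply]
  apply integral_congr_ae
  filter_upwards [ae_ne_zero] with x hx
  have hx0 : ‖x‖ ≠ 0 := norm_ne_zero_iff.2 hx
  rw [wv_rL, Phi_fst, Phi_fst]
  field_simp

/-- `∫ r² f g` -/
def r2 (κ : ℝ) (u v : Poly × Poly) : ℝ := ∫ x : R3, ‖x‖ ^ 2 * (wv κ u x * wv κ v x)

theorem bP_r3 {κ : ℝ} (hκ : 0 < κ) (u v : Poly × Poly) :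
    bP hκ u (rL (rL (rL v))) = r2 κ u v := by
  rw [bP_int, r2]
  apply integral_congr_ae
  filter_upwards [ae_ne_zero] with x hx
  have hx0 : ‖x‖ ≠ 0 := norm_ne_zero_iff.2 hx
  simp only [wv_rL]
  field_simp

theorem rel_bP {κ : ℝ} (hκ : 0 < κ) : Rel (bP hκ) (KL κ) rL (FL κ) (κ ^ 2) where
  symm u v := by rw [bP_apply, bP_apply, bc_symm]
  hK u v := by
    have h1 := K_identity hardyInt hκ (Phi hκ u) v
    have h2 := K_identity hardyInt hκ (Phi hκ v) u
    rw [dir_symm, ip_symm] at h2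
    rw [bP_apply, bP_apply, KL_apply, KL_apply, bc_symm, ← h1, ← h2]
  hr u v := by
    rw [bP_int, bP_int]
    congr 1
    funext x
    rw [wv_rL, wv_rL]
    ring
  Kr := rel_Kr κ
  KF := rel_KF κ
  Fr := rel_Fr κ

/-- `ip` on pairs is positive definite -/
theorem ip_def {κ : ℝ} (hκ : 0 < κ) (u : Poly × Poly) (h : ip (Phi hκ u) (Phi hκ u) = 0) :
    wv κ u = 0 := by
  have h1 : (fun x => wv κ u x * wv κ u x) =ᵐ[volume] 0 := by
    rw [← integral_eq_zero_iff_of_nonneg]
    · exact h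
    · intro x; exact mul_self_nonneg _
    · exact (m1 (Phi hκ u)).integrable_mul (m1 (Phi hκ u))
  have h2 : wv κ u =ᵐ[volume] fun _ => (0 : ℝ) := by
    filter_upwards [h1] with x hx
    simpa using hx
  exact (wv_continuous κ u).ae_eq_iff_eq (μ := volume) (continuous_const (y := (0 : ℝ))) |>.1 h2

/-- restriction of a polynomial to the line `t ↦ t v` -/
def line (v : R3) (p : Poly) : Polynomial ℝ :=
  MvPolynomial.aeval (fun i => Polynomial.C (v i) * Polynomial.X) p

theorem line_eval (v : R3) (p : Poly) (t : ℝ) : (line v p).eval t = ev p (t • v) := by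
  unfold line
  induction p using MvPolynomial.induction_on with
  | C a => simp [ev_C]
  | add p q hp hq => rw [map_add, Polynomial.eval_add, hp, hq, ev_add]
  | mul_X p i hp =>
    rw [map_mul, Polynomial.eval_mul, hp, ev_mul, ev_X, aeval_X, Polynomial.eval_mul,
      Polynomial.eval_C, Polynomial.eval_X, PiLp.smul_apply, smul_eq_mul, mul_comm t]

theorem poly_zero_of_pos {P : Polynomial ℝ} (h : ∀ t : ℝ, 0 < t → P.eval t = 0) : P = 0 :=
  Polynomial.eq_zero_of_infinite_isRoot P ((Set.Ioi_infinite (0 : ℝ)).mono fun t ht => h t ht)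

theorem poly_zero_of_neg {P : Polynomial ℝ} (h : ∀ t : ℝ, t < 0 → P.eval t = 0) : P = 0 :=
  Polynomial.eq_zero_of_infinite_isRoot P ((Set.Iio_infinite (0 : ℝ)).mono fun t ht => h t ht)

/-- the representation by pairs is unique -/
theorem wv_inj {κ : ℝ} {u : Poly × Poly} (h : wv κ u = 0) : u = 0 := by
  obtain ⟨p, q⟩ := u
  have h1 : ∀ x : R3, ev p x + ‖x‖ * ev q x = 0 := by
    intro x
    have := congrFun h x
    simp only [wv, G, hA, hB, Pi.zero_apply] at this
    have h2 : (ev p x + ‖x‖ * ev q x) * exp (-κ * ‖x‖) = 0 := by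
      rw [← this]; ring
    rcases mul_eq_zero.1 h2 with h3 | h3
    · exact h3
    · exact absurd h3 (exp_pos _).ne'
  have key : ∀ v : R3, v ≠ 0 → line v p = 0 ∧ line v q = 0 := by
    intro v hv
    have hv0 : ‖v‖ ≠ 0 := norm_ne_zero_iff.2 hv
    have e1 : line v p + Polynomial.C ‖v‖ * (Polynomial.X * line v q) = 0 := by
      apply poly_zero_of_pos
      intro t ht
      have h2 := h1 (t • v)
      rw [norm_smul, Real.norm_eq_abs, abs_of_pos ht] at h2
      rw [Polynomial.eval_add, Polynomial.eval_mul, Polynomial.eval_mul, Polynomial.eval_C,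
        Polynomial.eval_X, line_eval, line_eval]
      linarith
    have e2 : line v p - Polynomial.C ‖v‖ * (Polynomial.X * line v q) = 0 := by
      apply poly_zero_of_neg
      intro t ht
      have h2 := h1 (t • v)
      rw [norm_smul, Real.norm_eq_abs, abs_of_neg ht] at h2
      rw [Polynomial.eval_sub, Polynomial.eval_mul, Polynomial.eval_mul, Polynomial.eval_C,
        Polynomial.eval_X, line_eval, line_eval]
      linarith
    have e3 : line v p = 0 := by
      have : (2 : Polynomial ℝ) * line v p = 0 := by linear_combination e1 + e2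
      rcases mul_eq_zero.1 this with h3 | h3
      · exact absurd h3 two_ne_zero
      · exact h3
    refine ⟨e3, ?_⟩
    rw [e3, zero_add] at e1
    rcases mul_eq_zero.1 e1 with h3 | h3
    · exact absurd (Polynomial.C_eq_zero.1 h3) hv0
    · rcases mul_eq_zero.1 h3 with h4 | h4
      · exact absurd h4 Polynomial.X_ne_zero
      · exact h4
  obtain ⟨v0, hv0⟩ : ∃ v : R3, v ≠ 0 := exists_ne 0
  have hz : ∀ s : Poly, (∀ v : R3, v ≠ 0 → line v s = 0) → s = 0 := by
    intro s hs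
    apply MvPolynomial.funext
    intro y
    rw [map_zero]
    have hev : MvPolynomial.eval y s = ev s ((WithLp.equiv 2 (Fin 3 → ℝ)).symm y) := rfl
    rw [hev]
    by_cases hy : (WithLp.equiv 2 (Fin 3 → ℝ)).symm y = 0
    · rw [hy]
      have := line_eval v0 s 0
      rw [hs v0 hv0, zero_smul] at this
      simpa using this.symm
    · have := line_eval ((WithLp.equiv 2 (Fin 3 → ℝ)).symm y) s 1
      rw [hs _ hy, one_smul] at this
      simpa using this.symm
  rw [hz p fun v hv => (key v hv).1, hz q fun v hv => (key v hv).2]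
  rfl

theorem ip_def' {κ : ℝ} (hκ : 0 < κ) (u : Poly × Poly) (h : ip (Phi hκ u) (Phi hκ u) = 0) :
    u = 0 := wv_inj (ip_def hκ u h)

/-- `L²` on pairs -/
def L2 : Poly × Poly →ₗ[ℝ] Poly × Poly := Lp.prodMap Lp

theorem L2_apply (u : Poly × Poly) : L2 u = (Lp u.1, Lp u.2) := rfl

theorem L2_eq (κ : ℝ) : cas (KL κ) rL (FL κ) (κ ^ 2) = L2 := by
  apply LinearMap.ext
  intro u
  rw [cas_eq, L2_apply]

theorem L2_symm {κ : ℝ} (hκ : 0 < κ) (u v : Poly × Poly) :
    ip (Phi hκ (L2 u)) (Phi hκ v) = ip (Phi hκ u) (Phi hκ (L2 v)) := by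
  rw [← bP_rL, ← bP_rL, ← L2_eq κ, (rel_bP hκ).cas_symm, (rel_bP hκ).cas_r]

theorem rel_zero (κ : ℝ) :
    Rel (0 : Poly × Poly →ₗ[ℝ] Poly × Poly →ₗ[ℝ] ℝ) (KL κ) rL (FL κ) (κ ^ 2) where
  symm _ _ := rfl
  hK _ _ := rfl
  hr _ _ := rfl
  Kr := rel_Kr κ
  KF := rel_KF κ
  Fr := rel_Fr κ

theorem L2_K (κ : ℝ) (u : Poly × Poly) : Kop κ (L2 u) = L2 (Kop κ u) := by
  have h := (rel_zero κ).cas_K u
  rw [L2_eq κ] at h
  exact h

/-- **Kramers' formula** for `r²` on the shell `κ`. -/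
theorem r2_formula {κ : ℝ} (hκ : 0 < κ) {g h : Poly × Poly} (hg : Kop κ g = g)
    (hh : Kop κ h = h) :
    r2 κ g h = 1 / (2 * κ ^ 2) * ((5 / κ ^ 2 + 1) * ip (Phi hκ g) (Phi hκ h)
      - 3 * ip (Phi hκ g) (Phi hκ (L2 h))) := by
  rw [← bP_r3 hκ, (rel_bP hκ).kramers (by positivity) hg hh, bP_rL, bP_rL, L2_eq]

end

end Vale.Agent.P370.H617
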