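import Vale.Agent.P370.H617.Moments
import Vale.Agent.P370.H198.LatDefs
import Vale.Agent.P363.R.H10.Grad

/-! Norms of products of shell functions (block P2b): moments, `L¹` norm of the Laplacian, and the
sup norm from the representation by the Newtonian potential. -/

namespace Vale.Agent.P370.H617

open MeasureTheory Set Real Filter Topology
open Vale.Agent.P363.H849
open Vale.Agent.P370.H198 (IsLap Bnd)
open Vale.Agent.P370.H624 (Shell ShellP sk sk_pos sk_mul)

noncomputable section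

/-! ### Cauchy-Schwarz -/

theorem cs_int {a b c : R3 → ℝ} (ha : Integrable a) (hb : Integrable b) (hc : Integrable c)
    (a0 : ∀ x, 0 ≤ a x) (b0 : ∀ x, 0 ≤ b x) (c0 : ∀ x, 0 ≤ c x)
    (h : ∀ x, c x ^ 2 ≤ a x * b x) :
    ∫ x, c x ≤ √(∫ x, a x) * √(∫ x, b x) := by
  set A := ∫ x, a x with hA
  set B := ∫ x, b x with hB
  set C := ∫ x, c x with hC
  have A0 : 0 ≤ A := integral_nonneg a0
  have B0 : 0 ≤ B := integral_nonneg b0
  have C0 : 0 ≤ C := integral_nonneg c0
  have key : ∀ t : ℝ, 0 ≤ A * (t * t) + (-(2 * C)) * t + B := by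
    intro t
    rcases le_total 0 t with ht | ht
    · have h1 : ∀ x, 2 * t * c x ≤ t ^ 2 * a x + b x := by
        intro x
        have h2 := h x
        have h3 : (2 * t * c x) ^ 2 ≤ (t ^ 2 * a x + b x) ^ 2 := by
          have h4 : (2 * t * c x) ^ 2 = 4 * t ^ 2 * c x ^ 2 := by ring
          have h5 : 4 * t ^ 2 * c x ^ 2 ≤ 4 * t ^ 2 * (a x * b x) :=
            mul_le_mul_of_nonneg_left h2 (by positivity)
          nlinarith [sq_nonneg (t ^ 2 * a x - b x)]
        have h6 : 0 ≤ t ^ 2 * a x + b x :=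
          add_nonneg (mul_nonneg (sq_nonneg t) (a0 x)) (b0 x)
        exact le_of_sq_le_sq h3 h6
      have h7 : ∫ x, 2 * t * c x ≤ ∫ x, (t ^ 2 * a x + b x) :=
        integral_mono (hc.const_mul _) ((ha.const_mul _).add hb) h1
      rw [integral_const_mul, integral_add (ha.const_mul _) hb, integral_const_mul] at h7
      rw [← hA, ← hB, ← hC] at h7
      nlinarith
    · have h1 : 0 ≤ A * (t * t) := mul_nonneg A0 (mul_self_nonneg t)
      have h2 : 0 ≤ (-(2 * C)) * t := by nlinarith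
      linarith
  have h1 := discrim_le_zero key
  unfold discrim at h1
  have h2 : C ^ 2 ≤ A * B := by nlinarith
  rw [← Real.sqrt_mul A0]
  exact Real.le_sqrt_of_sq_le h2

/-! ### the sup bound -/

/-- near part of `1/r^j` -/
def nr (j : ℕ) (R r : ℝ) : ℝ := if r < R then 1 / r ^ j else 0

theorem nr_nonneg {j : ℕ} {R r : ℝ} (hr : 0 ≤ r) : 0 ≤ nr j R r := by
  unfold nr; split_ifs <;> positivity

theorem nr_aux {R : ℝ} (j : ℕ) (r : ℝ) :
    r ^ 2 * nr j R r = (Iio R).indicator (fun r => r ^ 2 * (1 / r ^ j)) r := by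
  by_cases h : r < R
  · rw [nr, if_pos h, indicator_of_mem (show r ∈ Iio R from h)]
  · rw [nr, if_neg h, indicator_of_notMem (show r ∉ Iio R from h), mul_zero]

theorem int_nr1 {R : ℝ} (hR : 0 < R) :
    Integrable (fun x : R3 => nr 1 R ‖x‖) ∧ ∫ x : R3, nr 1 R ‖x‖ = 2 * π * R ^ 2 := by
  have e : ∀ r ∈ Ioi (0 : ℝ), r ^ 2 * nr 1 R r = (Iio R).indicator (fun r => r) r := by
    intro r hr
    rw [nr_aux 1 r]
    by_cases h : r ∈ Iio R
    · rw [indicator_of_mem h, indicator_of_mem h]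
      have : r ≠ 0 := ne_of_gt hr
      field_simp
    · rw [indicator_of_notMem h, indicator_of_notMem h]
  have hs : Ioi (0 : ℝ) ∩ Iio R = Ioo 0 R := by ext; simp
  constructor
  · rw [Vale.Agent.P363.R.H10.integrable_radial (F := nr 1 R),
      integrableOn_congr_fun e measurableSet_Ioi]
    unfold IntegrableOn
    rw [integrable_indicator_iff measurableSet_Iio, IntegrableOn,
      Measure.restrict_restrict measurableSet_Iio, inter_comm, hs]
    have : IntegrableOn (fun r : ℝ => r) (Icc 0 R) := continuous_id.continuousOn.integrableOn_Icc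
    exact this.mono_set Ioo_subset_Icc_self
  · rw [Vale.Agent.P363.R.H10.integral_radial (nr 1 R), setIntegral_congr_fun measurableSet_Ioi e,
      integral_indicator measurableSet_Iio, Measure.restrict_restrict measurableSet_Iio,
      inter_comm, hs, ← integral_Ioc_eq_integral_Ioo, ← intervalIntegral.integral_of_le hR.le,
      integral_id]
    ring

theorem int_nr2 {R : ℝ} (hR : 0 < R) :
    Integrable (fun x : R3 => nr 2 R ‖x‖) ∧ ∫ x : R3, nr 2 R ‖x‖ = 4 * π * R := by
  have e : ∀ r ∈ Ioi (0 : ℝ), r ^ 2 * nr 2 R r = (Iio R).indicator (fun _ => 1) r := by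
    intro r hr
    rw [nr_aux 2 r]
    by_cases h : r ∈ Iio R
    · rw [indicator_of_mem h, indicator_of_mem h]
      have : r ≠ 0 := ne_of_gt hr
      field_simp
    · rw [indicator_of_notMem h, indicator_of_notMem h]
  have hs : Ioi (0 : ℝ) ∩ Iio R = Ioo 0 R := by ext; simp
  constructor
  · rw [Vale.Agent.P363.R.H10.integrable_radial (F := nr 2 R),
      integrableOn_congr_fun e measurableSet_Ioi]
    unfold IntegrableOn
    rw [integrable_indicator_iff measurableSet_Iio, IntegrableOn,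
      Measure.restrict_restrict measurableSet_Iio, inter_comm, hs]
    have : IntegrableOn (fun _ : ℝ => (1 : ℝ)) (Icc 0 R) :=
      continuous_const.continuousOn.integrableOn_Icc
    exact this.mono_set Ioo_subset_Icc_self
  · rw [Vale.Agent.P363.R.H10.integral_radial (nr 2 R), setIntegral_congr_fun measurableSet_Ioi e,
      integral_indicator measurableSet_Iio, Measure.restrict_restrict measurableSet_Iio,
      inter_comm, hs, ← integral_Ioc_eq_integral_Ioo, ← intervalIntegral.integral_of_le hR.le]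
    simp

theorem le_nr {j : ℕ} {R r M a : ℝ} (hR : 0 < R) (hr : 0 ≤ r) (ha : 0 ≤ a) (haM : a ≤ M) :
    a / r ^ j ≤ M * nr j R r + a / R ^ j := by
  unfold nr
  split_ifs with h
  · have h1 : a / r ^ j ≤ M * (1 / r ^ j) := by
      rw [mul_one_div]; gcongr
    have h2 : 0 ≤ a / R ^ j := by positivity
    linarith
  · push Not at h
    have : R ^ j ≤ r ^ j := pow_le_pow_left₀ hR.le h j
    have h1 : a / r ^ j ≤ a / R ^ j := by gcongr
    linarith

/-- **Sup bound** from the representation by the Newtonian potential. -/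
theorem sup_of_repr {f : R3 → ℝ} (hf : Integrable f) {M : ℝ} (hM : ∀ x, |f x| ≤ M) {κ : ℝ}
    (h0 : 0 ≤ κ) (h1 : κ ≤ 1)
    (hrep : ∀ z, -(4 * π) * f z = ∫ x, (κ ^ 2 - 2 / ‖x‖) * f x / ‖x - z‖) :
    ∀ z, |f z| ≤ 17 * ∫ x, |f x| := by
  -- one step of the bootstrap
  set I := ∫ x, |f x| with hI
  have hI0 : 0 ≤ I := integral_nonneg fun x => abs_nonneg _
  have step : ∀ M : ℝ, (∀ x, |f x| ≤ M) → ∀ z, |f z| ≤ 3 / 8 * M + 65 / (2 * π) * I := by
    intro M hM z
    have M0 : 0 ≤ M := (abs_nonneg _).trans (hM 0)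
    set g : R3 → ℝ := fun x => (M * nr 1 (1 / 2) ‖x - z‖ + |f x| / (1 / 2) ^ 1)
      + (M * nr 2 (1 / 8) ‖x‖ + |f x| / (1 / 8) ^ 2)
      + (M * nr 2 (1 / 8) ‖x - z‖ + |f x| / (1 / 8) ^ 2) with hg
    have i1 : Integrable fun x : R3 => nr 1 (1 / 2) ‖x - z‖ :=
      (int_nr1 (R := 1 / 2) (by norm_num)).1.comp_sub_right z
    have i2 : Integrable fun x : R3 => nr 2 (1 / 8) ‖x - z‖ :=
      (int_nr2 (R := 1 / 8) (by norm_num)).1.comp_sub_right z
    have i3 : Integrable fun x : R3 => nr 2 (1 / 8) ‖x‖ := (int_nr2 (R := 1 / 8) (by norm_num)).1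
    have j1 : ∫ x : R3, nr 1 (1 / 2) ‖x - z‖ = 2 * π * (1 / 2) ^ 2 := by
      rw [integral_sub_right_eq_self (fun x : R3 => nr 1 (1 / 2) ‖x‖) z]
      exact (int_nr1 (R := 1 / 2) (by norm_num)).2
    have j2 : ∫ x : R3, nr 2 (1 / 8) ‖x - z‖ = 4 * π * (1 / 8) := by
      rw [integral_sub_right_eq_self (fun x : R3 => nr 2 (1 / 8) ‖x‖) z]
      exact (int_nr2 (R := 1 / 8) (by norm_num)).2
    have j3 : ∫ x : R3, nr 2 (1 / 8) ‖x‖ = 4 * π * (1 / 8) :=
      (int_nr2 (R := 1 / 8) (by norm_num)).2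
    have k1 : Integrable fun x : R3 => (M * nr 1 (1 / 2) ‖x - z‖ + |f x| / (1 / 2) ^ 1) :=
      (i1.const_mul M).add (hf.abs.div_const _)
    have k2 : Integrable fun x : R3 => (M * nr 2 (1 / 8) ‖x‖ + |f x| / (1 / 8) ^ 2) :=
      (i3.const_mul M).add (hf.abs.div_const _)
    have k3 : Integrable fun x : R3 => (M * nr 2 (1 / 8) ‖x - z‖ + |f x| / (1 / 8) ^ 2) :=
      (i2.const_mul M).add (hf.abs.div_const _)
    have hgi : Integrable g := (k1.add k2).add k3
    have hgv : ∫ x, g x = M * (3 / 2 * π) + 130 * I := by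
      have k12 : Integrable fun x : R3 => (M * nr 1 (1 / 2) ‖x - z‖ + |f x| / (1 / 2) ^ 1)
          + (M * nr 2 (1 / 8) ‖x‖ + |f x| / (1 / 8) ^ 2) := k1.add k2
      have s1 : ∫ x, g x = (∫ x, ((M * nr 1 (1 / 2) ‖x - z‖ + |f x| / (1 / 2) ^ 1)
          + (M * nr 2 (1 / 8) ‖x‖ + |f x| / (1 / 8) ^ 2)))
          + ∫ x, (M * nr 2 (1 / 8) ‖x - z‖ + |f x| / (1 / 8) ^ 2) := integral_add k12 k3
      have s2 : (∫ x, ((M * nr 1 (1 / 2) ‖x - z‖ + |f x| / (1 / 2) ^ 1)
          + (M * nr 2 (1 / 8) ‖x‖ + |f x| / (1 / 8) ^ 2)))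
          = (∫ x, (M * nr 1 (1 / 2) ‖x - z‖ + |f x| / (1 / 2) ^ 1))
          + ∫ x, (M * nr 2 (1 / 8) ‖x‖ + |f x| / (1 / 8) ^ 2) := integral_add k1 k2
      rw [s1, s2, integral_add (i1.const_mul M) (hf.abs.div_const _),
        integral_add (i3.const_mul M) (hf.abs.div_const _),
        integral_add (i2.const_mul M) (hf.abs.div_const _)]
      simp only [integral_const_mul, integral_div, j1, j2, j3, ← hI]
      ring
    have hle : ∀ᵐ x : R3, ‖(κ ^ 2 - 2 / ‖x‖) * f x / ‖x - z‖‖ ≤ g x := by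
      filter_upwards [ae_ne_zero] with x hx
      have hx0 : 0 < ‖x‖ := norm_pos_iff.2 hx
      have q1 := le_nr (j := 1) (R := 1 / 2) (r := ‖x - z‖) (by norm_num) (norm_nonneg _)
        (abs_nonneg (f x)) (hM x)
      have q2 := le_nr (j := 2) (R := 1 / 8) (r := ‖x‖) (by norm_num) (norm_nonneg _)
        (abs_nonneg (f x)) (hM x)
      have q3 := le_nr (j := 2) (R := 1 / 8) (r := ‖x - z‖) (by norm_num) (norm_nonneg _)
        (abs_nonneg (f x)) (hM x)
      refine le_trans ?_ (add_le_add (add_le_add q1 q2) q3)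
      rw [Real.norm_eq_abs, abs_div, abs_mul, abs_norm]
      have hκ : |κ ^ 2 - 2 / ‖x‖| ≤ 1 + 2 / ‖x‖ := by
        rw [abs_le]
        have : κ ^ 2 ≤ 1 := by nlinarith
        have h2 : 0 ≤ 2 / ‖x‖ := by positivity
        constructor <;> nlinarith [sq_nonneg κ]
      rcases (norm_nonneg (x - z)).eq_or_lt with h | h
      · rw [← h]
        simp only [div_zero, zero_pow (by norm_num : (1 : ℕ) ≠ 0),
          zero_pow (by norm_num : (2 : ℕ) ≠ 0), add_zero, zero_add]
        positivity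
      · have e1 : |κ ^ 2 - 2 / ‖x‖| * |f x| / ‖x - z‖
            ≤ (1 + 2 / ‖x‖) * |f x| / ‖x - z‖ := by gcongr
        refine e1.trans ?_
        have e2 : (1 + 2 / ‖x‖) * |f x| / ‖x - z‖
            = |f x| / ‖x - z‖ ^ 1 + |f x| * (2 * (1 / ‖x‖) * (1 / ‖x - z‖)) := by
          rw [pow_one]; field_simp
        have e3 : |f x| / ‖x‖ ^ 2 + |f x| / ‖x - z‖ ^ 2
            = |f x| * ((1 / ‖x‖) ^ 2 + (1 / ‖x - z‖) ^ 2) := by
          field_simp
        rw [e2, add_assoc, e3]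
        gcongr
        nlinarith [sq_nonneg (1 / ‖x‖ - 1 / ‖x - z‖)]
    have hfin := norm_integral_le_of_norm_le hgi hle
    rw [← hrep z, hgv, norm_mul, Real.norm_eq_abs, Real.norm_eq_abs, abs_neg,
      abs_of_pos (by positivity : (0 : ℝ) < 4 * π)] at hfin
    have hπ := Real.pi_pos
    have e4 : 3 / 8 * M + 65 / (2 * π) * I = (M * (3 / 2 * π) + 130 * I) / (4 * π) := by
      field_simp
      ring
    rw [e4, le_div_iff₀ (by positivity)]
    linarith
  have hbdd : BddAbove (range fun x => |f x|) := ⟨M, by rintro _ ⟨x, rfl⟩; exact hM x⟩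
  set S := ⨆ x, |f x| with hS
  have hS1 : ∀ x, |f x| ≤ S := fun x => le_ciSup hbdd x
  have hS2 : S ≤ 3 / 8 * S + 65 / (2 * π) * I := ciSup_le (step S hS1)
  have hπ : (3.14 : ℝ) < π := Real.pi_gt_d2
  have h5 : 65 / (2 * π) ≤ 85 / 8 := by
    rw [div_le_div_iff₀ (by positivity) (by norm_num)]
    nlinarith
  intro z
  have h6 := hS1 z
  nlinarith [mul_le_mul_of_nonneg_right h5 hI0]

end

end Vale.Agent.P370.H617
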