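import Vale.Agent.P370.H617.Norms

/-! Norms of products of shell functions (block P2b), second part. -/

namespace Vale.Agent.P370.H617

open MeasureTheory Set Real Filter Topology
open Vale.Agent.P363.H849
open Vale.Agent.P370.H198 (IsLap Bnd)
open Vale.Agent.P370.H624 (Shell ShellP sk sk_pos sk_mul)

noncomputable section

theorem int_w4 : Integrable (fun x : R3 => 1 / (1 + ‖x‖) ^ 4) ∧
    ∫ x : R3, 1 / (1 + ‖x‖) ^ 4 = 4 / 3 * π := by
  refine ⟨Vale.Agent.P363.R.H10.integrable_pow4, ?_⟩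
  rw [Vale.Agent.P363.R.H10.integral_radial (fun r => 1 / (1 + r) ^ 4)]
  have hd : ∀ r ∈ Ioi (0 : ℝ), HasDerivAt (fun r : ℝ => 1 / 3 * (1 - 1 / (1 + r)) ^ 3)
      (r ^ 2 * (1 / (1 + r) ^ 4)) r := by
    intro r hr
    have hr1 : (1 + r) ≠ 0 := by
      have : (0 : ℝ) < r := hr
      positivity
    have h1 : HasDerivAt (fun r : ℝ => 1 + r) 1 r := (hasDerivAt_id r).const_add 1
    have h2 := ((h1.inv hr1).const_sub 1).pow 3
    have h3 := h2.const_mul (1 / 3 : ℝ)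
    have h4 : (fun r : ℝ => 1 / 3 * (1 - 1 / (1 + r)) ^ 3)
        = fun r : ℝ => 1 / 3 * ((fun y => 1 - (fun r : ℝ => 1 + r)⁻¹ y) ^ 3) r := by
      funext y
      simp
    rw [h4]
    refine h3.congr_deriv ?_
    simp only [Pi.inv_apply]
    push_cast
    field_simp
    ring
  have hc : ContinuousWithinAt (fun r : ℝ => 1 / 3 * (1 - 1 / (1 + r)) ^ 3) (Ici 0) 0 := by
    apply ContinuousAt.continuousWithinAt
    have : ContinuousAt (fun r : ℝ => 1 / (1 + r)) 0 := by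
      apply ContinuousAt.div continuousAt_const (by fun_prop) (by norm_num)
    fun_prop
  have ht : Tendsto (fun r : ℝ => 1 / 3 * (1 - 1 / (1 + r)) ^ 3) atTop (𝓝 (1 / 3 * (1 - 0) ^ 3)) := by
    apply Tendsto.const_mul
    apply Tendsto.pow
    apply Tendsto.const_sub
    apply Tendsto.div_atTop tendsto_const_nhds
    exact tendsto_atTop_add_const_left _ _ tendsto_id
  have hi : IntegrableOn (fun r : ℝ => r ^ 2 * (1 / (1 + r) ^ 4)) (Ioi 0) :=
    (Vale.Agent.P363.R.H10.integrable_radial (F := fun r => 1 / (1 + r) ^ 4)).1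
      Vale.Agent.P363.R.H10.integrable_pow4
  rw [integral_Ioi_of_hasDerivAt_of_tendsto hc hd hi ht]
  norm_num
  ring

section onef

variable {κ : ℝ} (hκ : 0 < κ) {n : ℕ} (hn : κ * n = 1) {u : Poly × Poly} (hu : Kop κ u = u)

theorem n_pos (hn : κ * n = 1) : 1 ≤ n := by
  rcases Nat.eq_zero_or_pos n with h | h
  · rw [h] at hn; simp at hn
  · exact h

include hκ hn hu

theorem int_one_add_pow4 : ∫ x : R3, (1 + ‖x‖ ^ 4) * wv κ u x ^ 2
    ≤ 47 / 2 * (n : ℝ) ^ 8 * ip (Phi hκ u) (Phi hκ u) := by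
  have h1 := (mom_bounds hκ hn hu).2.2.2
  rw [mom_zero hκ] at h1
  have e : ∫ x : R3, (1 + ‖x‖ ^ 4) * wv κ u x ^ 2 = mom κ 0 u u + mom κ 4 u u := by
    unfold mom
    rw [← integral_add (mom_integrable hκ 0 u u) (mom_integrable hκ 4 u u)]
    congr 1; funext x; ring
  rw [e, mom_zero hκ]
  have h2 : (1 : ℝ) ≤ (n : ℝ) ^ 8 := one_le_pow₀ (by exact_mod_cast n_pos hn)
  nlinarith [ip_nonneg (Phi hκ u)]

theorem l1_le : ∫ x : R3, |wv κ u x| ≤ 29 * (n : ℝ) ^ 4 * √(ip (Phi hκ u) (Phi hκ u)) := by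
  have hfi : Integrable fun x : R3 => (1 + ‖x‖) ^ 4 * wv κ u x ^ 2 := by
    have h0 := mom_integrable hκ 0 u u
    have h4 := mom_integrable hκ 4 u u
    refine ((h0.add h4).const_mul 8).mono' ?_ ?_
    · exact (by have := wv_continuous κ u; fun_prop :
        Continuous fun x : R3 => (1 + ‖x‖) ^ 4 * wv κ u x ^ 2).aestronglyMeasurable
    · filter_upwards with x
      rw [Real.norm_eq_abs, abs_of_nonneg (by positivity)]
      simp only [Pi.add_apply]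
      have h5 : (1 + ‖x‖) ^ 4 ≤ 8 * (1 + ‖x‖ ^ 4) := by
        nlinarith [sq_nonneg (‖x‖ - 1), sq_nonneg (‖x‖ ^ 2 - 1), norm_nonneg x,
          mul_nonneg (norm_nonneg x) (sq_nonneg (‖x‖ - 1)), sq_nonneg (‖x‖ ^ 2 - ‖x‖)]
      nlinarith [mul_le_mul_of_nonneg_right h5 (sq_nonneg (wv κ u x))]
  have habs : Integrable fun x : R3 => |wv κ u x| := by
    have h2 : Integrable fun x : R3 => (1 + ‖x‖) ^ 4 * wv κ u x ^ 2 + 1 / (1 + ‖x‖) ^ 4 :=
      hfi.add int_w4.1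
    refine h2.mono' (wv_continuous κ u).abs.aestronglyMeasurable ?_
    filter_upwards with x
    rw [Real.norm_eq_abs, abs_abs]
    have h3 : 0 < (1 + ‖x‖) ^ 4 := by positivity
    set a := (1 + ‖x‖) ^ 4 with ha
    have h4 : (a * |wv κ u x| - 1 / 2) ^ 2 ≥ 0 := sq_nonneg _
    have h5 : a * wv κ u x ^ 2 + 1 / a - |wv κ u x|
        = ((a * |wv κ u x| - 1 / 2) ^ 2 + 3 / 4) / a := by
      field_simp
      rw [← sq_abs (wv κ u x)]
      ring
    have h6 : 0 ≤ ((a * |wv κ u x| - 1 / 2) ^ 2 + 3 / 4) / a := by positivity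
    linarith
  have h1 := cs_int hfi int_w4.1 habs (fun x => by positivity) (fun x => by positivity)
    (fun x => abs_nonneg _) (fun x => by
      rw [sq_abs]
      have : (1 + ‖x‖) ^ 4 ≠ 0 := by positivity
      field_simp
      exact le_refl _)
  rw [int_w4.2] at h1
  have h8 : ∫ x : R3, (1 + ‖x‖) ^ 4 * wv κ u x ^ 2
      ≤ 188 * (n : ℝ) ^ 8 * ip (Phi hκ u) (Phi hκ u) := by
    have h0 := mom_integrable hκ 0 u u
    have h4 := mom_integrable hκ 4 u u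
    have hle : ∫ x : R3, (1 + ‖x‖) ^ 4 * wv κ u x ^ 2
        ≤ ∫ x : R3, 8 * ((1 + ‖x‖ ^ 4) * wv κ u x ^ 2) := by
      apply integral_mono hfi
      · refine ((h0.add h4).const_mul 8).congr ?_
        filter_upwards with x
        simp only [Pi.add_apply]
        ring
      · intro x
        have h5 : (1 + ‖x‖) ^ 4 ≤ 8 * (1 + ‖x‖ ^ 4) := by
          nlinarith [sq_nonneg (‖x‖ - 1), sq_nonneg (‖x‖ ^ 2 - 1), norm_nonneg x,
            mul_nonneg (norm_nonneg x) (sq_nonneg (‖x‖ - 1)), sq_nonneg (‖x‖ ^ 2 - ‖x‖)]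
        show (1 + ‖x‖) ^ 4 * wv κ u x ^ 2 ≤ 8 * ((1 + ‖x‖ ^ 4) * wv κ u x ^ 2)
        nlinarith [mul_le_mul_of_nonneg_right h5 (sq_nonneg (wv κ u x))]
    rw [integral_const_mul] at hle
    have := int_one_add_pow4 hκ hn hu
    linarith
  set I := ip (Phi hκ u) (Phi hκ u) with hI
  have I0 : 0 ≤ I := ip_nonneg _
  have hπ : π ≤ 3.15 := Real.pi_lt_d2.le
  have h9 : √(∫ x : R3, (1 + ‖x‖) ^ 4 * wv κ u x ^ 2) * √(4 / 3 * π)
      ≤ 29 * (n : ℝ) ^ 4 * √I := by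
    rw [← Real.sqrt_mul (integral_nonneg fun x => by positivity)]
    apply Real.sqrt_le_iff.2
    refine ⟨by positivity, ?_⟩
    rw [mul_pow, Real.sq_sqrt I0]
    calc (∫ x : R3, (1 + ‖x‖) ^ 4 * wv κ u x ^ 2) * (4 / 3 * π)
        ≤ (188 * (n : ℝ) ^ 8 * I) * (4 / 3 * 3.15) := by gcongr
      _ ≤ (29 * (n : ℝ) ^ 4) ^ 2 * I := by
          have : 0 ≤ (n : ℝ) ^ 8 * I := by positivity
          nlinarith
  exact h1.trans h9

theorem l1_integrable : Integrable (wv κ u) := by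
  have h1 := mom_integrable hκ 0 u u
  have h2 := mom_integrable hκ 4 u u
  have h3 : Integrable fun x : R3 => (‖x‖ ^ 0 * (wv κ u x * wv κ u x)
      + ‖x‖ ^ 4 * (wv κ u x * wv κ u x)) * 8 + 1 / (1 + ‖x‖) ^ 4 :=
    ((h1.add h2).mul_const 8).add int_w4.1
  refine h3.mono' (wv_continuous κ u).aestronglyMeasurable ?_
  filter_upwards with x
  rw [Real.norm_eq_abs]
  have h5 : (1 + ‖x‖) ^ 4 ≤ 8 * (1 + ‖x‖ ^ 4) := by
    nlinarith [sq_nonneg (‖x‖ - 1), sq_nonneg (‖x‖ ^ 2 - 1), norm_nonneg x,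
      mul_nonneg (norm_nonneg x) (sq_nonneg (‖x‖ - 1)), sq_nonneg (‖x‖ ^ 2 - ‖x‖)]
  have h3 : 0 < (1 + ‖x‖) ^ 4 := by positivity
  set a := (1 + ‖x‖) ^ 4 with ha
  have h6 : a * wv κ u x ^ 2 + 1 / a - |wv κ u x|
      = ((a * |wv κ u x| - 1 / 2) ^ 2 + 3 / 4) / a := by
    field_simp
    rw [← sq_abs (wv κ u x)]
    ring
  have h7 : 0 ≤ ((a * |wv κ u x| - 1 / 2) ^ 2 + 3 / 4) / a := by positivity
  nlinarith [mul_le_mul_of_nonneg_right h5 (sq_nonneg (wv κ u x))]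

end onef

end

end Vale.Agent.P370.H617
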