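import Vale.Agent.P370.H617.Norms2
import Vale.Agent.P370.H546.Line

/-! Representation of shell functions by the Newtonian potential of their Laplacian. -/

namespace Vale.Agent.P370.H617

open MeasureTheory Set Real Filter Topology
open Vale.Agent.P363.H849
open Vale.Agent.P370.H546 (w1 w2 cur cur_zero w1_line wv_line half_r_lap)
open Vale.Agent.P363.R.H10 (kk kk1 kk2 ss ei)

noncomputable section

/-! ### integrability of exponentially bounded functions -/

theorem int_exp {c : ℝ} (hc : 0 < c) : Integrable fun x : R3 => exp (-c * ‖x‖) :=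
  (integrable_rad (f := fun r => exp (-c * r))).2 (integrableOn_pow_exp 2 hc)

theorem int_exp_div {c : ℝ} (hc : 0 < c) : Integrable fun x : R3 => exp (-c * ‖x‖) / ‖x‖ := by
  refine (integrable_rad (f := fun r => exp (-c * r) / r)).2 ?_
  refine (integrableOn_pow_exp 1 hc).congr_fun ?_ measurableSet_Ioi
  intro r hr
  have : r ≠ 0 := ne_of_gt hr
  simp only [pow_one]
  field_simp

theorem int_exp_div_div {c : ℝ} (hc : 0 < c) (z : R3) :
    Integrable fun x : R3 => exp (-c * ‖x‖) / ‖x‖ / ‖x - z‖ := by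
  have i1 : Integrable fun x : R3 => nr 2 1 ‖x - z‖ :=
    (int_nr2 (R := 1) (by norm_num)).1.comp_sub_right z
  have i2 : Integrable fun x : R3 => nr 2 1 ‖x‖ := (int_nr2 (R := 1) (by norm_num)).1
  have i3 := int_exp hc
  have i4 : Integrable fun x : R3 => (nr 2 1 ‖x‖ + exp (-c * ‖x‖))
      + (nr 2 1 ‖x - z‖ + exp (-c * ‖x‖)) := (i2.add i3).add (i1.add i3)
  refine i4.mono' ?_ ?_
  · exact (by fun_prop : Measurable fun x : R3 => exp (-c * ‖x‖) / ‖x‖ / ‖x - z‖).aestronglyMeasurable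
  · filter_upwards with x
    have h0 : 0 ≤ exp (-c * ‖x‖) := (exp_pos _).le
    have h1 : exp (-c * ‖x‖) ≤ 1 := by
      apply exp_le_one_iff.2
      have := norm_nonneg x
      nlinarith
    have q1 := le_nr (j := 2) (R := 1) (r := ‖x‖) one_pos (norm_nonneg _) h0 h1
    have q2 := le_nr (j := 2) (R := 1) (r := ‖x - z‖) one_pos (norm_nonneg _) h0 h1
    rw [one_mul, one_pow, div_one] at q1 q2
    rw [Real.norm_eq_abs, abs_of_nonneg (by positivity)]
    refine le_trans ?_ (add_le_add q1 q2)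
    rcases (norm_nonneg x).eq_or_lt with h | h
    · rw [← h]; norm_num; try positivity
    rcases (norm_nonneg (x - z)).eq_or_lt with h' | h'
    · rw [← h']; norm_num; try positivity
    have e1 : exp (-c * ‖x‖) / ‖x‖ / ‖x - z‖ = exp (-c * ‖x‖) * ((1 / ‖x‖) * (1 / ‖x - z‖)) := by
      field_simp
    have e2 : exp (-c * ‖x‖) / ‖x‖ ^ 2 + exp (-c * ‖x‖) / ‖x - z‖ ^ 2
        = exp (-c * ‖x‖) * ((1 / ‖x‖) ^ 2 + (1 / ‖x - z‖) ^ 2) := by
      field_simp
    rw [e1, e2]
    gcongr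
    nlinarith [sq_nonneg (1 / ‖x‖ - 1 / ‖x - z‖), sq_nonneg (1 / ‖x‖), sq_nonneg (1 / ‖x - z‖)]

theorem Bd1_integrable {φ : R3 → ℝ} (h : Bd1 φ) : Integrable φ := by
  obtain ⟨hc, A, c, hA, hc0, hb⟩ := h
  refine ((int_exp_div hc0).const_mul A).mono' (aesm_of_continuousAt hc) ?_
  filter_upwards [ae_ne_zero] with x hx
  rw [Real.norm_eq_abs, ← mul_div_assoc]
  exact hb x hx

theorem Bd1_integrable_div {φ : R3 → ℝ} (h : Bd1 φ) (z : R3) :
    Integrable fun x => φ x / ‖x - z‖ := by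
  obtain ⟨hc, A, c, hA, hc0, hb⟩ := h
  refine ((int_exp_div_div hc0 z).const_mul A).mono' ?_ ?_
  · simp only [div_eq_mul_inv]
    exact (aesm_of_continuousAt hc).mul
      (by fun_prop : Measurable fun x : R3 => (‖x - z‖)⁻¹).aestronglyMeasurable
  · filter_upwards [ae_ne_zero] with x hx
    rw [Real.norm_eq_abs, abs_div, abs_norm, ← mul_div_assoc, ← mul_div_assoc]
    gcongr
    exact hb x hx

theorem Bd0_tendsto_mul {φ K : R3 → ℝ} (h : Bd0 φ) {C : ℝ} (hK : ∀ y, |K y| ≤ C) :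
    Tendsto (fun y => φ y * K y) (cocompact R3) (𝓝 0) := by
  obtain ⟨_, A, c, hA, hc0, hb⟩ := h
  have C0 : 0 ≤ C := (abs_nonneg _).trans (hK 0)
  have h1 : Tendsto (fun y : R3 => A * exp (-c * ‖y‖) * C) (cocompact R3) (𝓝 0) := by
    have h2 : Tendsto (fun y : R3 => exp (-c * ‖y‖)) (cocompact R3) (𝓝 0) := by
      apply Real.tendsto_exp_atBot.comp
      have h3 : Tendsto (fun y : R3 => c * ‖y‖) (cocompact R3) atTop :=
        (tendsto_norm_cocompact_atTop).const_mul_atTop hc0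
      have h4 := tendsto_neg_atTop_atBot.comp h3
      refine h4.congr fun y => ?_
      simp
    simpa using (h2.const_mul A).mul_const C
  refine squeeze_zero_norm' ?_ h1
  have hne : ∀ᶠ y : R3 in cocompact R3, y ≠ 0 := by
    have := (isCompact_singleton (x := (0 : R3))).compl_mem_cocompact
    exact this
  filter_upwards [hne] with y hy
  rw [norm_mul]
  exact mul_le_mul (hb y hy) (hK y) (abs_nonneg _) (by positivity)

theorem w1_bd0 {κ : ℝ} (hκ : 0 < κ) (u : Poly × Poly) (k : Fin 3) : Bd0 (w1 κ u k) :=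
  (((isProfA hκ).bd0 _).add ((isProfA hκ).bd1_X _ k)).add
    (((isProfB hκ).bd0 _).add ((isProfB hκ).bd1_X _ k))

theorem w2_bd1 {κ : ℝ} (hκ : 0 < κ) (u : Poly × Poly) (k : Fin 3) : Bd1 (w2 κ u k) := by
  have A := isProfA hκ
  have B := isProfB hκ
  exact ((((A.bd0 _).add (A.bd1_X _ k)).bd1).add ((A.bd1_h1 _).add (A.bd1_h2 _ k))).add
    ((((B.bd0 _).add (B.bd1_X _ k)).bd1).add ((B.bd1_h1 _).add (B.bd1_h2 _ k)))

/-- one integration by parts against a bounded kernel -/
theorem parts_step {φ φ' K K' : R3 → ℝ} (h : Bd0 φ) (h' : Integrable φ') (k : Fin 3)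
    (hd : ∀ y, y ≠ 0 → HasLineDerivAt ℝ φ (φ' y) y (ei k))
    (mK : Measurable K) (mK' : Measurable K') {C : ℝ} (bK : ∀ y, |K y| ≤ C)
    (bK' : ∀ y, |K' y| ≤ C) (dK : ∀ y, HasLineDerivAt ℝ K (K' y) y (ei k)) :
    ∫ y, φ' y * K y = - ∫ y, φ y * K' y := by
  have i1 : Integrable fun y => φ' y * K y :=
    h'.mul_bdd (c := C) mK.aestronglyMeasurable (ae_of_all _ bK)
  have i2 : Integrable fun y => φ y * K' y :=
    (Bd1_integrable h.bd1).mul_bdd (c := C) mK'.aestronglyMeasurable (ae_of_all _ bK')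
  have hz : ∫ y, (φ' y * K y + φ y * K' y) = 0 := by
    refine Vale.Agent.P363.R.H10.integral_lineDeriv_zero (f := fun y => φ y * K y) (v := ei k)
      (by rw [Vale.Agent.P363.R.H10.finrank_R3]; norm_num) (i1.add i2) (fun y hy => ?_) ?_
    · exact Vale.Agent.P363.R.H10.HasLineDerivAt.mul' (hd y hy) (dK y)
    · exact Bd0_tendsto_mul h bK
  rw [integral_add i1 i2] at hz
  linarith

theorem lineDeriv_of_cur {f : R3 → ℝ} {d : ℝ} {y : R3} {k : Fin 3}
    (h : HasDerivAt (fun t => f (cur y k t)) d 0) : HasLineDerivAt ℝ f d y (ei k) := h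

theorem meas_ss (e : ℝ) (z : R3) : Measurable (ss e z) :=
  (Vale.Agent.P363.R.H10.continuous_ss e z).measurable

theorem meas_coord (i : Fin 3) : Measurable fun y : R3 => y i :=
  (EuclideanSpace.proj (𝕜 := ℝ) i : R3 →L[ℝ] ℝ).continuous.measurable

theorem meas_kk (e : ℝ) (z : R3) : Measurable (kk e z) := by
  unfold kk
  have := meas_ss e z
  fun_prop

theorem meas_kk1 (e : ℝ) (z : R3) (i : Fin 3) : Measurable (kk1 e z i) := by
  unfold kk1
  have h1 := meas_ss e z
  have h2 := meas_coord i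
  fun_prop

theorem meas_kk2 (e : ℝ) (z : R3) (i : Fin 3) : Measurable (kk2 e z i) := by
  unfold kk2
  have h1 := meas_ss e z
  have h2 := meas_coord i
  fun_prop

/-- The regularised identity. -/
theorem repr_reg {κ : ℝ} (hκ : 0 < κ) (u : Poly × Poly) (z : R3) {e : ℝ} (he : 0 < e) :
    ∫ y, (∑ k, w2 κ u k y) * kk e z y = - ∫ y, 3 * e ^ 2 / ss e z y ^ 5 * wv κ u y := by
  have hss : ∀ y, 0 < ss e z y := fun y => Vale.Agent.P363.R.H10.ss_pos he z y
  have step : ∀ k, ∫ y, w2 κ u k y * kk e z y = ∫ y, wv κ u y * kk2 e z k y := by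
    intro k
    have s1 : ∫ y, w2 κ u k y * kk e z y = - ∫ y, w1 κ u k y * kk1 e z k y := by
      refine parts_step (C := max (1 / e) ((1 / e) ^ 2)) (w1_bd0 hκ u k)
        (Bd1_integrable (w2_bd1 hκ u k)) k (fun y hy => ?_) (meas_kk e z) (meas_kk1 e z k)
        (fun y => ?_) (fun y => ?_) (fun y => ?_)
      · have := w1_line hκ u (x := y) (k := k) (t := 0) (by rwa [cur_zero])
        rw [cur_zero] at this
        exact lineDeriv_of_cur this
      · exact (Vale.Agent.P363.R.H10.abs_kk_le he z y).trans (le_max_left _ _)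
      · exact (Vale.Agent.P363.R.H10.abs_kk1_le' he z y k).trans (le_max_right _ _)
      · exact Vale.Agent.P363.R.H10.hasLineDerivAt_kk (hss y) k
    have s2 : ∫ y, w1 κ u k y * kk1 e z k y = - ∫ y, wv κ u y * kk2 e z k y := by
      refine parts_step (C := max ((1 / e) ^ 2) (4 * (1 / e) ^ 3)) (wv_bd0 hκ u)
        (Bd1_integrable (w1_bd0 hκ u k).bd1) k (fun y hy => ?_) (meas_kk1 e z k) (meas_kk2 e z k)
        (fun y => ?_) (fun y => ?_) (fun y => ?_)
      · have := wv_line hκ u (x := y) (k := k) (t := 0) (by rwa [cur_zero])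
        rw [cur_zero] at this
        exact lineDeriv_of_cur this
      · exact (Vale.Agent.P363.R.H10.abs_kk1_le' he z y k).trans (le_max_left _ _)
      · exact (Vale.Agent.P363.R.H10.abs_kk2_le' he z y k).trans (le_max_right _ _)
      · exact Vale.Agent.P363.R.H10.hasLineDerivAt_kk1 (hss y) k
    rw [s1, s2, neg_neg]
  have i1 : ∀ k, Integrable fun y => w2 κ u k y * kk e z y := fun k =>
    (Bd1_integrable (w2_bd1 hκ u k)).mul_bdd (c := 1 / e) (meas_kk e z).aestronglyMeasurable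
      (ae_of_all _ fun y => Vale.Agent.P363.R.H10.abs_kk_le he z y)
  have i2 : ∀ k, Integrable fun y => wv κ u y * kk2 e z k y := fun k =>
    (Bd1_integrable (wv_bd0 hκ u).bd1).mul_bdd (c := 4 * (1 / e) ^ 3)
      (meas_kk2 e z k).aestronglyMeasurable
      (ae_of_all _ fun y => Vale.Agent.P363.R.H10.abs_kk2_le' he z y k)
  have t1 : ∫ y, (∑ k, w2 κ u k y) * kk e z y = ∑ k, ∫ y, w2 κ u k y * kk e z y := by
    rw [← integral_finsetSum _ fun k _ => i1 k]
    congr 1; funext y; rw [Finset.sum_mul]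
  rw [t1, Finset.sum_congr rfl fun k _ => step k, ← integral_finsetSum _ fun k _ => i2 k,
    ← integral_neg]
  congr 1
  funext y
  rw [← Finset.mul_sum, Fin.sum_univ_three, Vale.Agent.P363.R.H10.sum_kk2 (hss y)]
  ring

/-- **Representation** of `(p + r q) e^{-κ r}` by its Laplacian. -/
theorem repr_wv {κ : ℝ} (hκ : 0 < κ) (u : Poly × Poly) (z : R3) :
    -(4 * π) * wv κ u z = ∫ y, (∑ k, w2 κ u k y) / ‖y - z‖ := by
  have hb : Bd1 fun y => ∑ k, w2 κ u k y := by
    simp only [Fin.sum_univ_three]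
    exact ((w2_bd1 hκ u 0).add (w2_bd1 hκ u 1)).add (w2_bd1 hκ u 2)
  set e : ℕ → ℝ := fun n => 1 / ((n : ℝ) + 1) with hedef
  have he : ∀ n, 0 < e n := fun n => by rw [hedef]; positivity
  have h0 : Tendsto e atTop (𝓝 0) := tendsto_one_div_add_atTop_nhds_zero_nat
  obtain ⟨M, hM⟩ : ∃ M, ∀ y, |wv κ u y| ≤ M := by
    obtain ⟨_, A, c, hA, hc0, hbd⟩ := wv_bd0 hκ u
    refine ⟨max A |wv κ u 0|, fun y => ?_⟩
    by_cases hy : y = 0
    · rw [hy]; exact le_max_right _ _
    · refine ((hbd y hy).trans ?_).trans (le_max_left _ _)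
      have : exp (-c * ‖y‖) ≤ 1 := by
        apply exp_le_one_iff.2
        have := norm_nonneg y
        nlinarith
      nlinarith
  have hR := Vale.Agent.P363.R.H10.tendsto_approx (wv_continuous κ u).measurable hM
    (wv_continuous κ u).continuousAt (x := z) he h0
  have hL : Tendsto (fun n => ∫ y, (∑ k, w2 κ u k y) * kk (e n) z y) atTop
      (𝓝 (∫ y, (∑ k, w2 κ u k y) / ‖y - z‖)) := by
    refine tendsto_integral_of_dominated_convergence
      (fun y => |(∑ k, w2 κ u k y) / ‖y - z‖|) ?_ (Bd1_integrable_div hb z).abs ?_ ?_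
    · intro n
      exact (Bd1_integrable hb).1.mul (meas_kk (e n) z).aestronglyMeasurable
    · intro n
      have hne : ∀ᵐ y : R3, y ≠ z := by rw [ae_iff]; simp
      filter_upwards [hne] with y hy
      rw [norm_mul, Real.norm_eq_abs, Real.norm_eq_abs, abs_div, abs_norm, div_eq_mul_inv]
      have hyz : 0 < ‖y - z‖ := norm_pos_iff.2 (sub_ne_zero.2 hy)
      gcongr
      rw [kk, abs_of_nonneg (by have := Vale.Agent.P363.R.H10.ss_nonneg (e n) z y; positivity),
        ← one_div]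
      exact one_div_le_one_div_of_le hyz (Vale.Agent.P363.R.H10.norm_le_ss (e n) z y)
    · have hne : ∀ᵐ y : R3, y ≠ z := by rw [ae_iff]; simp
      filter_upwards [hne] with y hy
      have hyz : 0 < ‖y - z‖ := norm_pos_iff.2 (sub_ne_zero.2 hy)
      rw [div_eq_mul_inv]
      apply Tendsto.const_mul
      have h1 : Tendsto (fun n => ss (e n) z y) atTop (𝓝 ‖y - z‖) := by
        unfold ss
        have h2 : Tendsto (fun n => ‖y - z‖ ^ 2 + e n ^ 2) atTop (𝓝 (‖y - z‖ ^ 2 + 0 ^ 2)) :=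
          (h0.pow 2).const_add _
        have h3 := (Real.continuous_sqrt.tendsto _).comp h2
        have h4 : √(‖y - z‖ ^ 2 + 0 ^ 2) = ‖y - z‖ := by
          rw [zero_pow (by norm_num), add_zero, Real.sqrt_sq (norm_nonneg _)]
        rw [h4] at h3
        exact h3
      have h5 := h1.inv₀ hyz.ne'
      refine h5.congr fun n => ?_
      rw [kk, one_div]
  have hE : ∀ n, ∫ y, (∑ k, w2 κ u k y) * kk (e n) z y
      = - ∫ y, 3 * e n ^ 2 / ss (e n) z y ^ 5 * wv κ u y := fun n => repr_reg hκ u z (he n)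
  have hL' := hL.congr hE
  have := tendsto_nhds_unique hL' hR.neg
  rw [this]; ring

/-- Representation of an eigenfunction. -/
theorem repr_shell {κ : ℝ} (hκ : 0 < κ) {u : Poly × Poly} (hu : Kop κ u = u) (z : R3) :
    -(4 * π) * wv κ u z = ∫ y, (κ ^ 2 - 2 / ‖y‖) * wv κ u y / ‖y - z‖ := by
  rw [repr_wv hκ u z]
  apply integral_congr_ae
  filter_upwards [ae_ne_zero] with y hy
  have h1 := half_r_lap κ u hy
  rw [hu] at h1
  have hy0 : ‖y‖ ≠ 0 := norm_ne_zero_iff.2 hy
  have h2 : ∑ k, w2 κ u k y = (κ ^ 2 - 2 / ‖y‖) * wv κ u y := by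
    field_simp
    linear_combination (-2) * h1
  rw [h2]

/-- **Sup bound** on a shell. -/
theorem sup_le {κ : ℝ} (hκ : 0 < κ) {n : ℕ} (hn : κ * n = 1) {u : Poly × Poly}
    (hu : Kop κ u = u) (z : R3) :
    |wv κ u z| ≤ 493 * (n : ℝ) ^ 4 * √(ip (Phi hκ u) (Phi hκ u)) := by
  obtain ⟨M, hM⟩ : ∃ M, ∀ y, |wv κ u y| ≤ M := by
    obtain ⟨_, A, c, hA, hc0, hbd⟩ := wv_bd0 hκ u
    refine ⟨max A |wv κ u 0|, fun y => ?_⟩
    by_cases hy : y = 0
    · rw [hy]; exact le_max_right _ _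
    · refine ((hbd y hy).trans ?_).trans (le_max_left _ _)
      have : exp (-c * ‖y‖) ≤ 1 := by
        apply exp_le_one_iff.2
        have := norm_nonneg y
        nlinarith
      nlinarith
  have hκ1 : κ ≤ 1 := by
    have h1 : (1 : ℝ) ≤ n := by exact_mod_cast n_pos hn
    nlinarith
  have h1 := sup_of_repr (Bd1_integrable (wv_bd0 hκ u).bd1) hM hκ.le hκ1
    (fun z => repr_shell hκ hu z) z
  have h2 := l1_le hκ hn hu
  nlinarith

end

end Vale.Agent.P370.H617
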